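import Crest.Agent.R217.NSS.Lie

/-! # NSS groups are Lie groups: the adjoint representation -/

set_option autoImplicit false
open Topology Filter

namespace Crest.Agent.R217.NSS

namespace LD

variable {G E L : Type*} [Group G] [TopologicalSpace G] [IsTopologicalGroup G] [T2Space G]
  [NormedAddCommGroup E] [NormedSpace ℝ E] [CompleteSpace E]
  [NormedAddCommGroup L] [NormedSpace ℝ L] [CompleteSpace L] (D : LD G E L)

omit [IsTopologicalGroup G] [CompleteSpace L] in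
theorem exists_conj_vec (h : G) (C : ℝ) (hC0 : 0 ≤ C)
    (hC : ∀ g, D.N (h * g * h⁻¹) ≤ C * D.N g) (v : L) :
    ∃ w : L, (∀ t : ℝ, D.ex (t • w) = h * D.ex (t • v) * h⁻¹) ∧ ‖w‖ ≤ C * ‖v‖ := by
  obtain ⟨u, hu, hun⟩ := D.toGD.exists_ops_of_lip (fun t : ℝ => h * D.ex (t • v) * h⁻¹)
    (fun s t => by rw [D.ex_add_smul]; group) (C * ‖v‖) (fun t => by
      refine (hC _).trans ?_
      have h1 := D.N_ex_le (t • v)
      rw [norm_smul, Real.norm_eq_abs] at h1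
      calc C * D.N (D.ex (t • v)) ≤ C * (|t| * ‖v‖) := mul_le_mul_of_nonneg_left h1 hC0
        _ = C * ‖v‖ * |t| := by ring)
  obtain ⟨w, rfl⟩ := D.surj u _ hu
  exact ⟨w, fun t => (D.eq_ex_of_isOPS w hu t).symm, by rwa [D.norm_j] at hun⟩

theorem small_aux (a b t : ℝ) (ha : 0 ≤ a) (hb : 0 ≤ b) (ht : 0 < t)
    (h : t ≤ 1 / (1 + a + b)) : t * a ≤ 1 ∧ t * b ≤ 1 := by
  rw [le_div_iff₀ (by linarith)] at h
  constructor <;> nlinarith

omit [IsTopologicalGroup G] [T2Space G] [CompleteSpace E] [CompleteSpace L] in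
theorem conj_vec_add (h : G) (C : ℝ) (hC0 : 0 ≤ C)
    (hC : ∀ g, D.N (h * g * h⁻¹) ≤ C * D.N g) (v w a b c : L)
    (ha : ∀ t : ℝ, D.ex (t • a) = h * D.ex (t • v) * h⁻¹)
    (hb : ∀ t : ℝ, D.ex (t • b) = h * D.ex (t • w) * h⁻¹)
    (hc : ∀ t : ℝ, D.ex (t • c) = h * D.ex (t • (v + w)) * h⁻¹) : c = a + b := by
  have key : ‖c - (a + b)‖ ≤ 0 := by
    refine norm_le_of_smul_le _ 0
      (‖c‖ ^ 2 + C * (2 * (‖v‖ + ‖w‖) ^ 2) + (‖a‖ ^ 2 + ‖b‖ ^ 2 + ‖a‖ * ‖b‖))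
      (1 / (1 + ‖w‖ + ‖b‖)) (by positivity) (fun t ht htd => ?_)
    obtain ⟨hw1, hb1⟩ := small_aux ‖w‖ ‖b‖ t (norm_nonneg _) (norm_nonneg _) ht htd
    have hn : ∀ x : L, ‖t • x‖ = t * ‖x‖ := fun x => by
      rw [norm_smul, Real.norm_eq_abs, abs_of_pos ht]
    have h1 := D.ι_ex_sub (t • c)
    have h2 := D.ι_ex_mul (t • a) (t • b) (by rw [hn]; exact hb1)
    have h3 := D.N_trotter (t • v) (t • w) (by rw [hn]; exact hw1)
    have h4 : ‖D.ι (D.ex (t • a) * D.ex (t • b)) - D.ι (D.ex (t • c))‖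
        ≤ C * (2 * (‖t • v‖ + ‖t • w‖) ^ 2) := by
      rw [D.norm_ι_sub, ha, hb, hc]
      have h5 : (h * D.ex (t • (v + w)) * h⁻¹)⁻¹
          * (h * D.ex (t • v) * h⁻¹ * (h * D.ex (t • w) * h⁻¹))
          = h * ((D.ex (t • v + t • w))⁻¹ * (D.ex (t • v) * D.ex (t • w))) * h⁻¹ := by
        rw [smul_add]
        group
      rw [h5]
      exact (hC _).trans (mul_le_mul_of_nonneg_left h3 hC0)
    have h6 : D.j (t • (c - (a + b)))
        = (D.ι (D.ex (t • a) * D.ex (t • b)) - D.j (t • a + t • b))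
          - (D.ι (D.ex (t • a) * D.ex (t • b)) - D.ι (D.ex (t • c)))
          - (D.ι (D.ex (t • c)) - D.j (t • c)) := by
      rw [smul_sub, smul_add, map_sub]
      abel
    rw [← D.norm_j, h6]
    refine (norm_sub_le _ _).trans ?_
    have h7 := norm_sub_le (D.ι (D.ex (t • a) * D.ex (t • b)) - D.j (t • a + t • b))
      (D.ι (D.ex (t • a) * D.ex (t • b)) - D.ι (D.ex (t • c)))
    simp only [hn] at h1 h2 h4
    have h8 : 0 * t + (‖c‖ ^ 2 + C * (2 * (‖v‖ + ‖w‖) ^ 2)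
        + (‖a‖ ^ 2 + ‖b‖ ^ 2 + ‖a‖ * ‖b‖)) * t ^ 2
        = (t * ‖c‖) ^ 2 + C * (2 * (t * ‖v‖ + t * ‖w‖) ^ 2)
          + ((t * ‖a‖) ^ 2 + (t * ‖b‖) ^ 2 + t * ‖a‖ * (t * ‖b‖)) := by ring
    rw [h8]
    linarith
  exact sub_eq_zero.mp (norm_le_zero_iff.mp key)

/-- Conjugation by `h` is induced by a continuous linear map of `L`. -/
theorem exists_Ad (h : G) :
    ∃ A : L →L[ℝ] L, ∀ v, D.ex (A v) = h * D.ex v * h⁻¹ := by
  obtain ⟨C, hC0, hC⟩ := D.conj h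
  choose A0 hA hn using D.exists_conj_vec h C hC0 hC
  let A1 : L →ₗ[ℝ] L :=
    { toFun := A0
      map_add' := fun v w => D.conj_vec_add h C hC0 hC v w _ _ _ (hA v) (hA w) (hA (v + w))
      map_smul' := fun c v => D.ex_smul_inj _ _ (fun t => by
        rw [hA, RingHom.id_apply, smul_smul, smul_smul, hA]) }
  refine ⟨A1.mkContinuous C hn, fun v => ?_⟩
  have h1 := hA v 1
  rw [one_smul, one_smul] at h1
  exact h1

/-- The adjoint representation. -/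
noncomputable def Ad (h : G) : L →L[ℝ] L := Classical.choose (D.exists_Ad h)

theorem ex_Ad (h : G) (v : L) : D.ex (D.Ad h v) = h * D.ex v * h⁻¹ :=
  Classical.choose_spec (D.exists_Ad h) v

theorem ex_smul_Ad (h : G) (v : L) (t : ℝ) :
    D.ex (t • D.Ad h v) = h * D.ex (t • v) * h⁻¹ := by
  rw [← map_smul, ex_Ad]

theorem Ad_one : D.Ad 1 = 1 := by
  ext v
  refine D.ex_smul_inj _ _ (fun t => ?_)
  rw [ex_smul_Ad]
  simp

theorem Ad_mul (g h : G) : D.Ad (g * h) = D.Ad g * D.Ad h := by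
  ext v
  refine D.ex_smul_inj _ _ (fun t => ?_)
  rw [ex_smul_Ad, ContinuousLinearMap.mul_apply, ex_smul_Ad, ex_smul_Ad]
  group

theorem norm_Ad_le (h : G) (hh : D.N h ≤ 1) : ‖D.Ad h‖ ≤ 2 := by
  refine ContinuousLinearMap.opNorm_le_bound _ (by norm_num) (fun v => ?_)
  refine norm_le_of_smul_le _ _ (‖D.Ad h v‖ ^ 2) 1 one_pos (fun t ht _ => ?_)
  have hn : ∀ x : L, ‖t • x‖ = t * ‖x‖ := fun x => by
    rw [norm_smul, Real.norm_eq_abs, abs_of_pos ht]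
  have h1 := D.ι_ex_sub (t • D.Ad h v)
  have h2 := D.N_conj_le_two h (D.ex (t • v)) hh
  have h3 := D.N_ex_le (t • v)
  rw [← D.ex_smul_Ad, ← D.norm_ι] at h2
  have h4 : D.j (t • D.Ad h v) = D.ι (D.ex (t • D.Ad h v))
      - (D.ι (D.ex (t • D.Ad h v)) - D.j (t • D.Ad h v)) := by abel
  rw [← D.norm_j, h4]
  refine (norm_sub_le _ _).trans ?_
  rw [hn] at h1 h3
  nlinarith

theorem norm_Ad_sub_one_le (h : G) (hh : D.N h ≤ 1) : ‖D.Ad h - 1‖ ≤ 2 * D.N h := by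
  have hN := D.N_nonneg h
  refine ContinuousLinearMap.opNorm_le_bound _ (by linarith) (fun v => ?_)
  refine norm_le_of_smul_le _ _ (‖D.Ad h v‖ ^ 2 + ‖v‖ ^ 2) (1 / (1 + ‖v‖ + 0)) (by positivity)
    (fun t ht htd => ?_)
  obtain ⟨hv1, -⟩ := small_aux ‖v‖ 0 t (norm_nonneg _) le_rfl ht htd
  have hn : ∀ x : L, ‖t • x‖ = t * ‖x‖ := fun x => by
    rw [norm_smul, Real.norm_eq_abs, abs_of_pos ht]
  have h1 := D.ι_ex_sub (t • D.Ad h v)
  have h3 := D.N_ex_le (t • v)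
  rw [hn] at h1 h3
  have h2 := D.ι_conj_sub h (D.ex (t • v)) hh (h3.trans hv1)
  have h5 := D.ι_ex_sub (t • v)
  rw [hn] at h5
  rw [← D.ex_smul_Ad] at h2
  have h4 : D.j (t • (D.Ad h - 1) v)
      = ((D.ι (D.ex (t • D.Ad h v)) - D.ι (D.ex (t • v)))
        - (D.ι (D.ex (t • D.Ad h v)) - D.j (t • D.Ad h v)))
        + (D.ι (D.ex (t • v)) - D.j (t • v)) := by
    rw [ContinuousLinearMap.sub_apply, ContinuousLinearMap.one_apply, smul_sub, map_sub]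
    abel
  rw [← D.norm_j, h4]
  refine (norm_add_le _ _).trans ?_
  have h6 := norm_sub_le (D.ι (D.ex (t • D.Ad h v)) - D.ι (D.ex (t • v)))
    (D.ι (D.ex (t • D.Ad h v)) - D.j (t • D.Ad h v))
  have h7 : D.N (D.ex (t • v)) * D.N h ≤ t * ‖v‖ * D.N h := mul_le_mul_of_nonneg_right h3 hN
  nlinarith

theorem norm_Ad_sub_Ad_le (g k : G) (hk : D.N (g⁻¹ * k) ≤ 1) :
    ‖D.Ad k - D.Ad g‖ ≤ ‖D.Ad g‖ * (2 * D.N (g⁻¹ * k)) := by
  have h1 : D.Ad k - D.Ad g = D.Ad g * (D.Ad (g⁻¹ * k) - 1) := by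
    rw [mul_sub, ← Ad_mul, mul_inv_cancel_left, mul_one]
  rw [h1]
  exact (norm_mul_le _ _).trans
    (mul_le_mul_of_nonneg_left (D.norm_Ad_sub_one_le _ hk) (norm_nonneg _))

theorem continuous_Ad : Continuous D.Ad := by
  refine continuous_iff_continuousAt.mpr fun g => ?_
  rw [ContinuousAt, tendsto_iff_norm_sub_tendsto_zero]
  have h1 : Tendsto (fun k => D.N (g⁻¹ * k)) (𝓝 g) (𝓝 0) := by
    refine D.tends.comp ?_
    have : ContinuousAt (fun k => g⁻¹ * k) g := by fun_prop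
    rwa [ContinuousAt, inv_mul_cancel] at this
  have h2 : Tendsto (fun k => ‖D.Ad g‖ * (2 * D.N (g⁻¹ * k))) (𝓝 g) (𝓝 0) := by
    simpa using (h1.const_mul 2).const_mul ‖D.Ad g‖
  refine squeeze_zero' (Eventually.of_forall fun k => norm_nonneg _) ?_ h2
  filter_upwards [h1.eventually (ge_mem_nhds one_pos)] with k hk
  exact D.norm_Ad_sub_Ad_le g k hk

theorem ι_conj_approx (h g : G) (hh : D.N h ≤ 1) (w : L) :
    ‖D.ι (h * g * h⁻¹) - D.j (D.Ad h w)‖ ≤ 2 * ‖D.ι g - D.j w‖ + 6 * ‖w‖ ^ 2 := by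
  have h1 := D.ι_ex_sub (D.Ad h w)
  have h2 : ‖D.Ad h w‖ ≤ 2 * ‖w‖ :=
    ((D.Ad h).le_opNorm w).trans
      (mul_le_mul_of_nonneg_right (D.norm_Ad_le h hh) (norm_nonneg _))
  have h3 : ‖D.Ad h w‖ ^ 2 ≤ (2 * ‖w‖) ^ 2 := pow_le_pow_left₀ (norm_nonneg _) h2 2
  have h4 : ‖D.ι (h * g * h⁻¹) - D.ι (D.ex (D.Ad h w))‖ ≤ 2 * ‖D.ι g - D.ι (D.ex w)‖ := by
    rw [D.norm_ι_sub, D.norm_ι_sub, ex_Ad]
    have h5 : (h * D.ex w * h⁻¹)⁻¹ * (h * g * h⁻¹) = h * ((D.ex w)⁻¹ * g) * h⁻¹ := by group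
    rw [h5]
    exact D.N_conj_le_two h _ hh
  have h6 := D.ι_ex_sub w
  have h7 : ‖D.ι g - D.ι (D.ex w)‖ ≤ ‖D.ι g - D.j w‖ + ‖D.ι (D.ex w) - D.j w‖ := by
    have : D.ι g - D.ι (D.ex w) = (D.ι g - D.j w) - (D.ι (D.ex w) - D.j w) := by abel
    rw [this]
    exact norm_sub_le _ _
  have h8 : D.ι (h * g * h⁻¹) - D.j (D.Ad h w)
      = (D.ι (h * g * h⁻¹) - D.ι (D.ex (D.Ad h w)))
        + (D.ι (D.ex (D.Ad h w)) - D.j (D.Ad h w)) := by abel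
  rw [h8]
  refine (norm_add_le _ _).trans ?_
  nlinarith

end LD

end Crest.Agent.R217.NSS
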