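import Mathlib

/-! # NSS groups are Lie groups: Banach algebra and smoothness lemmas -/

set_option autoImplicit false
open Topology Filter
open scoped ContDiff

namespace Crest.Agent.R217.NSS

/-- A one-parameter group in a Banach algebra is an exponential. -/
theorem eq_exp_of_hom {B : Type*} [NormedRing B] [NormedAlgebra ℝ B] [CompleteSpace B]
    (A : ℝ → B) (X : B) (h0 : A 0 = 1) (hA : ∀ s t, A (s + t) = A s * A t)
    (hX : HasDerivAt A X 0) : A 1 = NormedSpace.exp X := by
  let _ : NormedAlgebra ℚ B := NormedAlgebra.restrictScalars ℚ ℝ B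
  have hd : ∀ t, HasDerivAt A (A t * X) t := by
    intro t
    have h1 : HasDerivAt (fun s => A (s - t)) X t := by
      have h2 : HasDerivAt A X (t - t) := by rwa [sub_self]
      exact h2.comp_sub_const t t
    have h3 : A = fun s => A t * A (s - t) := by
      funext s
      rw [← hA, add_sub_cancel]
    have h4 := h1.const_mul (A t)
    rwa [← h3] at h4
  have hc : ∀ t, HasDerivAt (fun u : ℝ => A u * NormedSpace.exp (u • (-X))) 0 t := by
    intro t
    have h := (hd t).fun_mul (hasDerivAt_exp_smul_const' (𝕂 := ℝ) (-X) t)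
    convert h using 1
    noncomm_ring
  have h1 := is_const_of_deriv_eq_zero (fun t => (hc t).differentiableAt)
    (fun t => (hc t).deriv) 1 0
  simp only [one_smul, zero_smul, h0, NormedSpace.exp_zero, mul_one] at h1
  have h2 : NormedSpace.exp (-X) * NormedSpace.exp X = 1 := by
    rw [← NormedSpace.exp_add_of_commute (Commute.refl X).neg_left, neg_add_cancel,
      NormedSpace.exp_zero]
  calc A 1 = A 1 * (NormedSpace.exp (-X) * NormedSpace.exp X) := by rw [h2, mul_one]
    _ = NormedSpace.exp X := by rw [← mul_assoc, h1, one_mul]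

theorem contDiff_exp_alg {B : Type*} [NormedRing B] [NormedAlgebra ℝ B] [CompleteSpace B] :
    ContDiff ℝ ∞ (fun X : B => NormedSpace.exp X) := by
  exact contDiff_iff_contDiffAt.2 fun X => (NormedSpace.exp_analytic (𝕂 := ℝ) X).contDiffAt

/-- `X ↦ (t ↦ t • X)` -/
noncomputable def anal2Ray (B : Type*) [NormedAddCommGroup B] [NormedSpace ℝ B] :
    B →L[ℝ] C(Set.Icc (0 : ℝ) 1, B) :=
  LinearMap.mkContinuous
    { toFun := fun X => ⟨fun t => (t : ℝ) • X, by fun_prop⟩
      map_add' := fun X Y => by ext t; simp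
      map_smul' := fun c X => by ext t; simp [smul_comm c] } 1 fun X => by
    refine (ContinuousMap.norm_le _ (by positivity)).2 fun t => ?_
    simp only [LinearMap.coe_mk, AddHom.coe_mk, ContinuousMap.coe_mk, norm_smul, Real.norm_eq_abs,
      abs_of_nonneg t.2.1]
    exact mul_le_mul_of_nonneg_right t.2.2 (norm_nonneg _)

/-- integration over `[0, 1]` -/
noncomputable def anal2Int (B : Type*) [NormedAddCommGroup B] [NormedSpace ℝ B] :
    C(Set.Icc (0 : ℝ) 1, B) →L[ℝ] B :=
  LinearMap.mkContinuous
    { toFun := fun f => ∫ t in (0 : ℝ)..1, f (Set.projIcc 0 1 zero_le_one t)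
      map_add' := fun f g => by
        simp only [ContinuousMap.add_apply]
        exact intervalIntegral.integral_add
          ((f.continuous.comp continuous_projIcc).intervalIntegrable _ _)
          ((g.continuous.comp continuous_projIcc).intervalIntegrable _ _)
      map_smul' := fun c f => by
        simp only [ContinuousMap.smul_apply, RingHom.id_apply]
        exact intervalIntegral.integral_smul _ _ } 1 fun f => by
    have := intervalIntegral.norm_integral_le_of_norm_le_const (a := 0) (b := 1) (C := ‖f‖)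
      (f := fun t => f (Set.projIcc 0 1 zero_le_one t)) fun t _ => f.norm_coe_le_norm _
    simpa using this

theorem contDiff_intExp {B : Type*} [NormedRing B] [NormedAlgebra ℝ B] [CompleteSpace B] :
    ContDiff ℝ ∞ (fun X : B => ∫ t in (0 : ℝ)..1, NormedSpace.exp (t • X)) := by
  let _ : NormedAlgebra ℚ B := NormedAlgebra.restrictScalars ℚ ℝ B
  let _ : NormedAlgebra ℚ C(Set.Icc (0 : ℝ) 1, B) :=
    NormedAlgebra.restrictScalars ℚ ℝ C(Set.Icc (0 : ℝ) 1, B)
  have h := (anal2Int B).contDiff.comp ((contDiff_exp_alg (B := C(Set.Icc (0 : ℝ) 1, B))).comp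
    (anal2Ray B).contDiff)
  convert h using 1
  funext X
  show _ = ∫ t in (0 : ℝ)..1, (NormedSpace.exp (anal2Ray B X)) (Set.projIcc 0 1 zero_le_one t)
  refine intervalIntegral.integral_congr fun t ht => ?_
  rw [Set.uIcc_of_le zero_le_one] at ht
  have e := NormedSpace.map_exp ((Pi.evalRingHom (fun _ => B) (⟨t, ht⟩ : Set.Icc (0 : ℝ) 1)).comp
    ContinuousMap.coeFnRingHom) (continuous_eval_const (F := C(Set.Icc (0 : ℝ) 1, B)) _)
    (anal2Ray B X)
  simp only [Set.projIcc_of_mem _ ht]
  exact e.symm

/-- Bootstrap: a solution of a smooth first-order system `Df x = F (x, f x)` is smooth. -/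
theorem contDiffOn_of_hasFDerivAt_self {X Y : Type*} [NormedAddCommGroup X] [NormedSpace ℝ X]
    [NormedAddCommGroup Y] [NormedSpace ℝ Y] (s : Set X) (hs : IsOpen s) (f : X → Y)
    (F : X × Y → X →L[ℝ] Y) (t : Set (X × Y)) (hF : ContDiffOn ℝ ∞ F t)
    (hst : ∀ x ∈ s, (x, f x) ∈ t) (hf : ∀ x ∈ s, HasFDerivAt f (F (x, f x)) x) :
    ContDiffOn ℝ ∞ f s := by
  rw [contDiffOn_infty] at hF ⊢
  intro n
  induction n with
  | zero => exact contDiffOn_zero.2 fun x hx => (hf x hx).continuousAt.continuousWithinAt
  | succ n ih =>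
    rw [Nat.cast_succ, contDiffOn_succ_iff_fderiv_of_isOpen hs]
    refine ⟨fun x hx => (hf x hx).differentiableAt.differentiableWithinAt, by simp, ?_⟩
    exact ((hF n).comp (contDiffOn_id.prodMk ih) hst).congr fun x hx => (hf x hx).fderiv

end Crest.Agent.R217.NSS
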