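import Crest.Agent.R217.NSS.Phi
import Crest.Agent.R217.NSS.Anal2

/-! # NSS groups are Lie groups: `Ad ∘ ex` and `Phi` are smooth -/

set_option autoImplicit false
open Topology Filter
open scoped ContDiff

namespace Crest.Agent.R217.NSS

namespace LD

variable {G E L : Type*} [Group G] [TopologicalSpace G] [IsTopologicalGroup G] [T2Space G]
  [NormedAddCommGroup E] [NormedSpace ℝ E] [CompleteSpace E]
  [NormedAddCommGroup L] [NormedSpace ℝ L] [CompleteSpace L] (D : LD G E L)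

theorem adExp_bound (z : L) {t : ℝ} (ht : |t| * ‖z‖ ≤ 1) :
    ‖D.Ad (D.ex (t • z)) - 1‖ ≤ 2 * (|t| * ‖z‖) := by
  have h1 := D.N_ex_le (t • z)
  rw [norm_smul, Real.norm_eq_abs] at h1
  exact (D.norm_Ad_sub_one_le _ (h1.trans ht)).trans (by linarith)

theorem adExp_deriv (z : L) : ∃ X, HasDerivAt (fun t : ℝ => D.Ad (D.ex (t • z))) X 0 := by
  have hδ : 0 < 1 / (‖z‖ + 1) := by positivity
  have hb : ∀ t : ℝ, |t| ≤ 1 / (‖z‖ + 1) → ‖D.Ad (D.ex (t • z)) - 1‖ ≤ 2 * (|t| * ‖z‖) := fun t ht => by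
    rw [le_div_iff₀ (by positivity)] at ht
    exact D.adExp_bound z (by nlinarith [abs_nonneg t])
  obtain ⟨v, hv⟩ := exists_hasDerivAt_of_almost_add (fun t : ℝ => D.Ad (D.ex (t • z)) - 1)
    (2 * ‖z‖ + 4 * ‖z‖ ^ 2) _ hδ
    (fun t ht => (hb t ht).trans (by nlinarith [mul_nonneg (sq_nonneg ‖z‖) (abs_nonneg t)]))
    (fun s t hs ht => by
      have e : D.Ad (D.ex ((s + t) • z)) - 1 - (D.Ad (D.ex (s • z)) - 1) - (D.Ad (D.ex (t • z)) - 1) =
          (D.Ad (D.ex (s • z)) - 1) * (D.Ad (D.ex (t • z)) - 1) := by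
        rw [D.ex_add_smul, D.Ad_mul]; noncomm_ring
      rw [e]
      refine (norm_mul_le _ _).trans ((mul_le_mul (hb s hs) (hb t ht) (norm_nonneg _)
        (by positivity)).trans ?_)
      nlinarith [mul_nonneg (norm_nonneg z) (mul_nonneg (abs_nonneg s) (abs_nonneg t))])
  exact ⟨v, by simpa using hv.add_const 1⟩

theorem exists_ad : ∃ ad : L →L[ℝ] (L →L[ℝ] L),
    ∀ z, D.Ad (D.ex z) = NormedSpace.exp (ad z) := by
  choose X hX using D.adExp_deriv
  have h0 : ∀ z : L, D.Ad (D.ex ((0 : ℝ) • z)) = 1 := fun z => by rw [zero_smul, D.ex_zero, D.Ad_one]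
  have hsmul : ∀ (c : ℝ) z, X (c • z) = c • X z := fun c z => by
    have h1 : HasDerivAt (fun t : ℝ => D.Ad (D.ex ((t * c) • z))) (c • X z) 0 := by
      have := HasDerivAt.scomp (0 : ℝ) (g₁ := fun t : ℝ => D.Ad (D.ex (t • z))) (g₁' := X z)
        (h := fun t => t * c) (by rw [zero_mul]; exact hX z) (hasDerivAt_mul_const c)
      exact this
    simp only [mul_smul] at h1
    exact (hX _).unique h1
  have hadd : ∀ z w, X (z + w) = X z + X w := fun z w => by
    have h1 := (hX z).mul (hX w)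
    simp only [h0, mul_one, one_mul] at h1
    have hδ : 0 < 1 / (2 * (‖z‖ + ‖w‖ + 1)) := by positivity
    have h2 := hasDerivAt_of_quad
      (fun t : ℝ => D.Ad (D.ex (t • z)) * D.Ad (D.ex (t • w)) - D.Ad (D.ex (t • (z + w)))) 0
      (8 * (‖z‖ + ‖w‖) ^ 2) _ hδ fun t ht => by
        rw [le_div_iff₀ (by positivity)] at ht
        have a0 := abs_nonneg t
        have a1 : |t| * (‖z‖ + ‖w‖) ≤ 1 / 2 := by nlinarith
        have a2 : ‖t • z‖ + ‖t • w‖ = |t| * (‖z‖ + ‖w‖) := by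
          rw [norm_smul, norm_smul, Real.norm_eq_abs, mul_add]
        have a3 := D.N_trotter (t • z) (t • w) (by linarith [norm_nonneg (t • z)])
        have a4 : 0 ≤ |t| * (‖z‖ + ‖w‖) := by positivity
        rw [a2] at a3
        have a5 := D.norm_Ad_sub_Ad_le _ _ (a3.trans (by nlinarith))
        have a6 := D.norm_Ad_le _ ((D.N_ex_le (t • z + t • w)).trans
          ((norm_add_le _ _).trans (by linarith)))
        rw [smul_zero, sub_zero, ← D.Ad_mul, smul_add]
        refine a5.trans ((mul_le_mul a6 (mul_le_mul_of_nonneg_left a3 zero_le_two)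
          (by linarith [D.N_nonneg ((D.ex (t • z + t • w))⁻¹ * (D.ex (t • z) * D.ex (t • w)))])
          zero_le_two).trans (le_of_eq ?_))
        rw [mul_pow, sq_abs]; ring
    exact (sub_eq_zero.1 ((h1.sub (hX (z + w))).unique h2)).symm
  have hbd : ∀ z, ‖X z‖ ≤ 2 * ‖z‖ := fun z => by
    refine (hX z).le_of_lip' (by positivity) ?_
    have : ∀ᶠ t : ℝ in 𝓝 0, |t| * ‖z‖ ≤ 1 :=
      ((by fun_prop : Continuous fun t : ℝ => |t| * ‖z‖).tendsto' 0 0 (by simp)).eventually_le_const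
        one_pos
    filter_upwards [this] with t ht
    rw [h0, sub_zero, Real.norm_eq_abs]
    exact (D.adExp_bound z ht).trans (le_of_eq (by ring))
  refine ⟨LinearMap.mkContinuous ⟨⟨X, hadd⟩, hsmul⟩ 2 hbd, fun z => ?_⟩
  have := eq_exp_of_hom _ (X z) (h0 z) (fun s t => by rw [D.ex_add_smul, D.Ad_mul]) (hX z)
  rwa [one_smul] at this

theorem contDiff_Ad_ex : ContDiff ℝ ∞ (fun z : L => D.Ad (D.ex z)) := by
  obtain ⟨ad, h⟩ := D.exists_ad
  simp only [h]
  exact contDiff_exp_alg.comp ad.contDiff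

theorem contDiff_Phi : ContDiff ℝ ∞ D.Phi := by
  obtain ⟨ad, h⟩ := D.exists_ad
  have : D.Phi = fun z => ∫ t in (0 : ℝ)..1, NormedSpace.exp (t • ad (-z)) := by
    funext z
    simp only [Phi, h, map_smul]
  rw [this]
  exact contDiff_intExp.comp (ad.contDiff.comp contDiff_neg)

theorem isUnit_Phi (z : L) (hz : ‖z‖ < 1 / 2) : IsUnit (D.Phi z) := by
  have h := D.norm_Phi_sub_one_le z (by linarith)
  rw [norm_sub_rev] at h
  exact ⟨Units.oneSub (1 - D.Phi z) (by linarith), by simp⟩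

theorem norm_inverse_Phi_le (z : L) (hz : ‖z‖ ≤ 1 / 4) : ‖Ring.inverse (D.Phi z)‖ ≤ 2 := by
  have h := D.norm_Phi_sub_one_le z (by linarith)
  rw [norm_sub_rev] at h
  have h1 := Ring.inverse_mul_cancel _ (D.isUnit_Phi z (by linarith))
  have h2 : Ring.inverse (D.Phi z) = 1 + Ring.inverse (D.Phi z) * (1 - D.Phi z) := by
    rw [mul_sub, mul_one, h1]; abel
  have h3 : ‖Ring.inverse (D.Phi z)‖ ≤ 1 + ‖Ring.inverse (D.Phi z)‖ * (2 * ‖z‖) := by
    conv_lhs => rw [h2]
    exact (norm_add_le _ _).trans (add_le_add ContinuousLinearMap.norm_id_le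
      ((norm_mul_le _ _).trans (mul_le_mul_of_nonneg_left h (norm_nonneg _))))
  nlinarith [norm_nonneg (Ring.inverse (D.Phi z))]

end LD

end Crest.Agent.R217.NSS
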