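import Mathlib

/-! # NSS groups are Lie groups: pure analysis lemmas -/

set_option autoImplicit false
open Topology Filter
open scoped ContDiff

namespace Crest.Agent.R217.NSS

/-- Telescoping over a fine subdivision of `[0,1]`. -/
theorem tele {F : Type*} [NormedAddCommGroup F] (g : ℝ → F) (A : ℝ)
    (h : ∀ ε > 0, ∃ δ > 0, ∀ t s : ℝ, 0 ≤ t → 0 < s → s ≤ δ → t + s ≤ 1 →
      ‖g (t + s) - g t‖ ≤ (A + ε) * s) : ‖g 1 - g 0‖ ≤ A := by
  refine le_of_forall_pos_le_add fun ε hε => ?_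
  obtain ⟨δ, hδ, h⟩ := h ε hε
  obtain ⟨n, hn⟩ := exists_nat_one_div_lt hδ
  set s : ℝ := 1 / (n + 1) with hs
  have hs0 : 0 < s := by positivity
  have hs1 : (n + 1) * s = 1 := by rw [hs]; field_simp
  have key : ∀ i : ℕ, i ≤ n + 1 → ‖g (i * s) - g 0‖ ≤ (A + ε) * (i * s) := by
    intro i hi
    induction i with
    | zero => simp
    | succ i ih =>
      have hi' : (i : ℝ) + 1 ≤ n + 1 := by exact_mod_cast hi
      have h1 := h (i * s) s (by positivity) hs0 hn.le (by nlinarith)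
      have h2 := ih (by omega)
      have h3 := norm_sub_le_norm_sub_add_norm_sub (g (i * s + s)) (g (i * s)) (g 0)
      push_cast
      rw [add_mul (i : ℝ), one_mul]
      linarith
  have := key (n + 1) le_rfl
  push_cast at this
  rwa [hs1, mul_one] at this

theorem tele2 {F : Type*} [NormedAddCommGroup F] (g : ℝ → F) (A B δ : ℝ) (hδ : 0 < δ)
    (h : ∀ t s : ℝ, 0 ≤ t → 0 < s → s ≤ δ → t + s ≤ 1 →
      ‖g (t + s) - g t‖ ≤ A * s + B * s ^ 2) : ‖g 1 - g 0‖ ≤ A := by
  refine tele g A fun ε hε => ⟨min δ (ε / (|B| + 1)), by positivity, fun t s ht hs hsδ hts => ?_⟩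
  have h1 := h t s ht hs (hsδ.trans (min_le_left _ _)) hts
  have h2 : s * (|B| + 1) ≤ ε := (le_div_iff₀ (by positivity)).1 (hsδ.trans (min_le_right _ _))
  have h3 := le_abs_self B
  nlinarith [mul_le_mul_of_nonneg_left h2 hs.le, mul_le_mul_of_nonneg_left h3 (sq_nonneg s),
    sq_nonneg s]

theorem an_nsmul {F : Type*} [NormedAddCommGroup F] [NormedSpace ℝ F] (f : ℝ → F) (c δ : ℝ)
    (hc : 0 ≤ c) (h0 : f 0 = 0)
    (h2 : ∀ s t, |s| ≤ δ → |t| ≤ δ → ‖f (s + t) - f s - f t‖ ≤ c * |s| * |t|)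
    {t : ℝ} (ht : 0 < t) (n : ℕ) (hn : n * t ≤ δ) :
    ‖f (n * t) - (n : ℝ) • f t‖ ≤ c * (n * t) ^ 2 := by
  induction n with
  | zero => simp [h0]
  | succ n ih =>
    push_cast at hn ⊢
    have hn0 : 0 ≤ n * t := by positivity
    have h3 := ih (by linarith)
    have h4 := h2 (n * t) t (by rw [abs_of_nonneg hn0]; linarith)
      (by rw [abs_of_pos ht]; linarith)
    rw [abs_of_nonneg hn0, abs_of_pos ht] at h4
    have e : f ((n + 1) * t) - ((n : ℝ) + 1) • f t =
        (f (n * t + t) - f (n * t) - f t) + (f (n * t) - (n : ℝ) • f t) := by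
      rw [add_mul, one_mul, add_smul, one_smul]; abel
    rw [e]
    refine (norm_add_le _ _).trans ?_
    nlinarith [mul_nonneg hc (mul_nonneg hn0 ht.le), mul_nonneg hc (mul_nonneg ht.le ht.le)]

theorem an_pos {F : Type*} [NormedAddCommGroup F] [NormedSpace ℝ F] (f : ℝ → F) (c δ : ℝ)
    (hc : 0 ≤ c) (h1 : ∀ t, |t| ≤ δ → ‖f t‖ ≤ c * |t|)
    (h2 : ∀ s t, |s| ≤ δ → |t| ≤ δ → ‖f (s + t) - f s - f t‖ ≤ c * |s| * |t|)
    {t a : ℝ} (ht : 0 < t) (hta : t ≤ a) (ha : a ≤ δ) :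
    ‖a • f t - t • f a‖ ≤ t * (c * a ^ 2 + c * t * (2 + a)) := by
  have h0 : f 0 = 0 := by simpa using h1 0 (by rw [abs_zero]; linarith)
  set n := ⌊a / t⌋₊ with hn
  have hn1 : n * t ≤ a := (le_div_iff₀ ht).1 (Nat.floor_le (div_nonneg (by linarith) ht.le))
  have hn2 : a < (n + 1) * t := (div_lt_iff₀ ht).1 (Nat.lt_floor_add_one _)
  have hn0 : 0 ≤ n * t := by positivity
  set r := a - n * t with hr
  have hr0 : 0 ≤ r := by linarith
  have hr1 : r ≤ t := by linarith
  have e1 := an_nsmul f c δ hc h0 h2 ht n (hn1.trans ha)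
  have e2 := h2 (n * t) r (by rw [abs_of_nonneg hn0]; linarith)
    (by rw [abs_of_nonneg hr0]; linarith)
  have e3 := h1 r (by rw [abs_of_nonneg hr0]; linarith)
  have e4 := h1 t (by rw [abs_of_pos ht]; linarith)
  rw [abs_of_nonneg hn0, abs_of_nonneg hr0, show n * t + r = a by ring] at e2
  rw [abs_of_nonneg hr0] at e3
  rw [abs_of_pos ht] at e4
  have e : a • f t - t • f a = r • f t -
      t • ((f (n * t) - (n : ℝ) • f t) + (f a - f (n * t) - f r) + f r) := by
    rw [hr]; module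
  have e1' : ‖f (n * t) - (n : ℝ) • f t‖ ≤ c * a ^ 2 := e1.trans (by gcongr)
  have e2' : ‖f a - f (n * t) - f r‖ ≤ c * a * t := e2.trans (by have := ht.le.trans hta; gcongr)
  have e3' : ‖f r‖ ≤ c * t := e3.trans (by gcongr)
  have e5 : ‖(f (n * t) - (n : ℝ) • f t) + (f a - f (n * t) - f r) + f r‖ ≤
      c * a ^ 2 + c * a * t + c * t :=
    norm_add₃_le.trans (by gcongr)
  rw [e]
  refine (norm_sub_le _ _).trans ?_
  rw [norm_smul, norm_smul, Real.norm_of_nonneg hr0, Real.norm_of_nonneg ht.le]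
  calc _ ≤ t * (c * t) + t * (c * a ^ 2 + c * a * t + c * t) := by gcongr
    _ = _ := by ring

/-- An almost additive Lipschitz function is differentiable at `0`. -/
theorem exists_hasDerivAt_of_almost_add {F : Type*} [NormedAddCommGroup F] [NormedSpace ℝ F]
    [CompleteSpace F] (f : ℝ → F) (c δ : ℝ) (hδ : 0 < δ)
    (h1 : ∀ t, |t| ≤ δ → ‖f t‖ ≤ c * |t|)
    (h2 : ∀ s t, |s| ≤ δ → |t| ≤ δ → ‖f (s + t) - f s - f t‖ ≤ c * |s| * |t|) :
    ∃ v, HasDerivAt f v 0 := by
  have hc : 0 ≤ c := by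
    have := (norm_nonneg _).trans (h1 δ (abs_of_pos hδ).le)
    rw [abs_of_pos hδ] at this
    exact nonneg_of_mul_nonneg_left this hδ
  have h0 : f 0 = 0 := by simpa using h1 0 (by rw [abs_zero]; linarith)
  have key : ∀ a t : ℝ, 0 < a → a ≤ δ → t ≠ 0 → |t| ≤ a →
      ‖a • f t - t • f a‖ ≤ |t| * (2 * c * a ^ 2 + c * |t| * (2 + a)) := by
    intro a t ha haδ ht hta
    have hca : 0 ≤ c * a ^ 2 := by positivity
    rcases lt_or_gt_of_ne ht with h | h
    · rw [abs_of_neg h] at hta ⊢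
      have e1 := an_pos (fun x => f (-x)) c δ hc (fun t ht => by simpa using h1 (-t) (by simpa))
        (fun s t hs ht => by
          simpa [add_comm] using h2 (-s) (-t) (by simpa) (by simpa)) (neg_pos.2 h) hta haδ
      have e2 := h2 a (-a) (by rwa [abs_of_pos ha]) (by rwa [abs_neg, abs_of_pos ha])
      rw [add_neg_cancel, h0, abs_neg, abs_of_pos ha] at e2
      rw [neg_neg] at e1
      have e : a • f t - t • f a = (a • f t - (-t) • f (-a)) - (-t) • (0 - f a - f (-a)) := by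
        module
      rw [e]
      refine (norm_sub_le _ _).trans ?_
      rw [norm_smul, Real.norm_of_nonneg (neg_pos.2 h).le]
      have := mul_le_mul_of_nonneg_left e2 (neg_pos.2 h).le
      nlinarith
    · rw [abs_of_pos h] at hta ⊢
      have e1 := an_pos f c δ hc h1 h2 h hta haδ
      nlinarith [mul_nonneg h.le hca]
  simp only [hasDerivAt_iff_tendsto_slope]
  rw [← cauchy_map_iff_exists_tendsto, Metric.cauchy_iff]
  refine ⟨inferInstance, fun ε hε => ?_⟩
  obtain ⟨a, ha, haδ, hac⟩ : ∃ a : ℝ, 0 < a ∧ a ≤ δ ∧ 2 * c * a < ε / 2 := by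
    refine ⟨min δ (ε / (4 * c + 1) / 2), by positivity, min_le_left _ _, ?_⟩
    have h3 : ε / (4 * c + 1) * (4 * c + 1) = ε := div_mul_cancel₀ _ (by positivity)
    have h4 : 0 < ε / (4 * c + 1) := by positivity
    nlinarith [mul_le_mul_of_nonneg_left (min_le_right δ (ε / (4 * c + 1) / 2)) hc]
  refine ⟨Metric.ball (a⁻¹ • f a) (ε / 2), ?_, fun x hx y hy => ?_⟩
  · have h3 : ∀ᶠ t : ℝ in 𝓝 0, 2 * c * a + c * |t| * (2 + a) / a < ε / 2 := by
      have : Continuous fun t : ℝ => 2 * c * a + c * |t| * (2 + a) / a := by fun_prop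
      exact this.continuousAt.eventually_lt continuousAt_const (by simpa using hac)
    have h4 : ∀ᶠ t : ℝ in 𝓝 0, |t| < a :=
      continuous_abs.continuousAt.eventually_lt continuousAt_const (by simpa using ha)
    rw [Filter.mem_map]
    filter_upwards [nhdsWithin_le_nhds h3, nhdsWithin_le_nhds h4, self_mem_nhdsWithin]
      with t h3 h4 ht
    have ht0 : t ≠ 0 := ht
    have hpos : 0 < |t| := abs_pos.2 ht0
    have e : slope f 0 t - a⁻¹ • f a = (a * t)⁻¹ • (a • f t - t • f a) := by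
      rw [slope_def_module, h0, sub_zero, sub_zero, smul_sub, smul_smul, smul_smul]
      congr 2 <;> field_simp
    rw [Set.mem_preimage, Metric.mem_ball, dist_eq_norm, e, norm_smul, norm_inv, norm_mul,
      Real.norm_of_nonneg ha.le, Real.norm_eq_abs]
    refine lt_of_le_of_lt ?_ h3
    calc _ ≤ (a * |t|)⁻¹ * (|t| * (2 * c * a ^ 2 + c * |t| * (2 + a))) := by
          gcongr
          exact key a t ha haδ ht0 h4.le
      _ = _ := by field_simp
  · have := dist_triangle_right x y (a⁻¹ • f a)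
    rw [Metric.mem_ball] at hx hy
    linarith

/-- A quadratic approximation gives the derivative at `0`. -/
theorem hasDerivAt_of_quad {F : Type*} [NormedAddCommGroup F] [NormedSpace ℝ F]
    (f : ℝ → F) (v : F) (c δ : ℝ) (hδ : 0 < δ)
    (h : ∀ t, |t| ≤ δ → ‖f t - t • v‖ ≤ c * t ^ 2) : HasDerivAt f v 0 := by
  have h0 : f 0 = 0 := by simpa using h 0 (by rw [abs_zero]; linarith)
  rw [hasDerivAt_iff_isLittleO_nhds_zero]
  have h1 : (fun t : ℝ => f (0 + t) - f 0 - t • v) =O[𝓝 0] fun t => t ^ 2 := by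
    refine Asymptotics.IsBigO.of_bound c ?_
    have h4 : ∀ᶠ t : ℝ in 𝓝 0, |t| < δ :=
      continuous_abs.continuousAt.eventually_lt continuousAt_const (by simpa using hδ)
    filter_upwards [h4] with t ht
    simpa [h0] using h t ht.le
  exact h1.trans_isLittleO (Asymptotics.isLittleO_pow_id one_lt_two)

/-- If `‖t • v‖ ≤ a t + c t²` for all small `t > 0` then `‖v‖ ≤ a`. -/
theorem norm_le_of_smul_le {F : Type*} [NormedAddCommGroup F] [NormedSpace ℝ F]
    (v : F) (a c δ : ℝ) (hδ : 0 < δ)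
    (h : ∀ t : ℝ, 0 < t → t ≤ δ → ‖t • v‖ ≤ a * t + c * t ^ 2) : ‖v‖ ≤ a := by
  refine le_of_forall_pos_le_add fun ε hε => ?_
  set t := min δ (ε / (|c| + 1)) with ht
  have ht0 : 0 < t := by positivity
  have h1 := h t ht0 (min_le_left _ _)
  have h2 : t * (|c| + 1) ≤ ε := (le_div_iff₀ (by positivity)).1 (min_le_right _ _)
  rw [norm_smul, Real.norm_of_nonneg ht0.le] at h1
  refine le_of_mul_le_mul_left (h1.trans ?_) ht0
  nlinarith [mul_le_mul_of_nonneg_left h2 ht0.le,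
    mul_le_mul_of_nonneg_left (le_abs_self c) (sq_nonneg t), sq_nonneg t]

end Crest.Agent.R217.NSS
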