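import Crest.Agent.R217.NSS.Conv

/-! # NSS groups are Lie groups: the approximate triangle inequality for the escape norm -/

set_option autoImplicit false
open Topology Filter
open scoped Pointwise

namespace Crest.Agent.R217.NSS

variable {G : Type*} [Group G]

/-- A norm `N` whose small values force membership in `K` dominates the escape norm of `K`. -/
theorem Rep.esc_le_N {E : Type*} [NormedAddCommGroup E] [NormedSpace ℝ E] (R : Rep G E)
    (K : Set G) (c : ℝ) (hc : 0 < c) (h : ∀ g, R.N g < c → g ∈ K) (g : G) :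
    esc K g ≤ R.N g / c := by
  refine esc_le K g _ (div_nonneg (R.N_nonneg g) hc.le) fun n hn => h _ ?_
  rw [← mul_div_assoc, div_lt_one hc] at hn
  exact (R.N_pow_le g n).trans_lt hn

variable [TopologicalSpace G] [IsTopologicalGroup G] [T2Space G] [LocallyCompactSpace G]

theorem IsSetup.improve {U K : Set G} (hS : IsSetup U K) :
    ∃ A : ℝ, 0 ≤ A ∧ ∀ ε : ℝ, 0 < ε → ∀ M : ℝ, 0 ≤ M →
      (∀ g, esc U g ≤ M * hull (fun x => esc U x + ε) g) →
      ∀ g, esc U g ≤ (A + M / 2) * hull (fun x => esc U x + ε) g := by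
  obtain ⟨B, c, hB, hc, hpk⟩ := hS.conv_package
  obtain ⟨m, hm, hmU⟩ := hS.esc_compare U hS.mem_nhds
  set b := c / (2 * m * B) with hb
  have hb0 : 0 < b := by positivity
  obtain ⟨U₁, hU₁, ℓ₂, hℓ₂, hℓ₂b⟩ := exists_wordLen U hS.mem_nhds b hb0
  obtain ⟨V, hV, hVc⟩ := exists_conj_nhds (K * K) (hS.isCompact.mul hS.isCompact) U₁ hU₁
  have hU₂ : V ∩ U ∈ 𝓝 (1 : G) := inter_mem hV hS.mem_nhds
  have h1 : (1 : G) ∈ V ∩ U := mem_of_mem_nhds hU₂
  obtain ⟨m₂, hm₂, hm₂U⟩ := hS.esc_compare' _ hU₂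
  refine ⟨2 * B * m₂ * m / c, by positivity, fun ε hε M hM h => ?_⟩
  set a : G → ℝ := fun x => esc U x + ε with ha
  have ha0 : ∀ g, 0 ≤ a g := fun g => add_nonneg (esc_nonneg U g) hε.le
  have hl := isLen_hull U hS.one_mem a ha0 (fun g => by simp only [ha, esc_inv U hS.inv_mem]) M hM h
  obtain ⟨R, r1, -, r3, r4⟩ := hpk _ ℓ₂ hl hℓ₂
  have hN2 : ∀ g, R.N g ≤ 2 * B := fun g => (R.N_le_two_norm g).trans (by linarith)
  have key : ∀ g, R.N g ≤ 2 * B * esc (V ∩ U) g + B * (M * hull a g) * b := fun g => by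
    have h0 : 0 ≤ B * (M * hull a g) * b := by have := hl.nonneg g; positivity
    by_cases hg : g ∈ V ∩ U
    · refine le_esc_of_forall _ h1 g _ _ _ (by positivity) fun n hn hi => ?_
      have h2 := R.pow_approx g n (B * (M * hull a g) * b) fun i hin =>
        r3 (g ^ i) g b (hS.subset hg.2) fun y hy => hℓ₂b _ (hVc y hy _ (hi i hin).1)
      have h3 := norm_sub_norm_le ((n : ℝ) • R.ι g) (R.ι (g ^ n))
      rw [norm_sub_rev, norm_smul, Real.norm_natCast, R.norm_ι, R.norm_ι] at h3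
      have hn' : (0 : ℝ) < n := by exact_mod_cast hn
      have h4 := hN2 (g ^ n)
      rw [← sub_le_iff_le_add, le_div_iff₀ hn']
      nlinarith
    · have h2 : 1 ≤ esc (V ∩ U) g := not_lt.1 fun hlt => hg (mem_of_esc_lt_one _ h1 g hlt)
      have := hN2 g
      nlinarith
  have key2 : ∀ g, R.N g ≤ (2 * B * m₂ + B * M * b) * a g := fun g => by
    have h2 : esc (V ∩ U) g ≤ m₂ * a g :=
      (hm₂U g).trans (mul_le_mul_of_nonneg_left (le_add_of_nonneg_right hε.le) hm₂.le)
    have h3 := mul_le_mul_of_nonneg_left (hull_le_self a ha0 g) (by positivity : 0 ≤ B * M * b)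
    have h4 := mul_le_mul_of_nonneg_left h2 (by positivity : 0 ≤ 2 * B)
    have := key g
    nlinarith
  intro g
  have h5 := le_mul_hull a R.N _ (by positivity) R.N_one.le R.N_mul_le key2 g
  calc esc U g ≤ m * esc K g := hmU g
    _ ≤ m * (R.N g / c) := mul_le_mul_of_nonneg_left (R.esc_le_N K c hc r4 g) hm.le
    _ ≤ m * ((2 * B * m₂ + B * M * b) * hull a g / c) := by gcongr
    _ = _ := by rw [hb]; field_simp

theorem IsSetup.boot {U K : Set G} (hS : IsSetup U K) :
    ∃ M : ℝ, 0 ≤ M ∧ ∀ g, esc U g ≤ M * hull (esc U) g := by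
  obtain ⟨A, hA, h⟩ := hS.improve
  refine ⟨2 * A, by positivity, esc_le_hull_of_eps U _ (by positivity) fun ε hε g => ?_⟩
  have h1 : ∀ k : ℕ, ∀ g, esc U g ≤ (2 * A + 1 / ε * (1 / 2) ^ k) *
      hull (fun x => esc U x + ε) g := fun k => by
    induction k with
    | zero =>
      intro g
      refine (esc_le_hull_eps U hS.one_mem ε hε g).trans (mul_le_mul_of_nonneg_right (by linarith)
        (hull_nonneg _ (fun x => add_nonneg (esc_nonneg U x) hε.le) g))
    | succ k ih =>
      intro g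
      refine (h ε hε _ (by positivity) ih g).trans (le_of_eq ?_)
      ring
  have h2 : Tendsto (fun k : ℕ => (2 * A + 1 / ε * (1 / 2) ^ k) * hull (fun x => esc U x + ε) g)
      atTop (𝓝 ((2 * A + 1 / ε * 0) * hull (fun x => esc U x + ε) g)) :=
    (((tendsto_pow_atTop_nhds_zero_of_lt_one (by norm_num) (by norm_num)).const_mul _).const_add
      _).mul_const _
  simpa using ge_of_tendsto' h2 fun k => h1 k g

end Crest.Agent.R217.NSS
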