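import Crest.Agent.R217.NSS.Hull

/-! # NSS groups are Lie groups: Lipschitz bump functions attached to a length function -/

set_option autoImplicit false
open Topology Filter
open scoped Pointwise

namespace Crest.Agent.R217.NSS

variable {G : Type*} [Group G] [TopologicalSpace G] [IsTopologicalGroup G]

/-- `ψ x = max 0 (1 - ⨅ u ∈ U, ℓ (u⁻¹ * x))` has all the listed properties. -/
theorem exists_bump (U : Set G) (hU : IsOpen U) (h1 : (1 : G) ∈ U) (ℓ : G → ℝ)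
    (hℓ : IsLen U ℓ) :
    ∃ ψ : G → ℝ, LowerSemicontinuous ψ ∧ (∀ x, 0 ≤ ψ x) ∧ (∀ x, ψ x ≤ 1) ∧
      (∀ x ∈ U, ψ x = 1) ∧ (∀ x, ψ x ≠ 0 → ∃ a ∈ U, ∃ b ∈ U, x = a * b) ∧
      ∀ x h, |ψ (x * h) - ψ x| ≤ ℓ h := by
  haveI : Nonempty U := ⟨⟨1, h1⟩⟩
  set d : G → ℝ := fun x => ⨅ u : U, ℓ ((u : G)⁻¹ * x) with hd
  have bdd : ∀ x, BddBelow (Set.range fun u : U => ℓ ((u : G)⁻¹ * x)) := fun x =>
    ⟨0, by rintro _ ⟨u, rfl⟩; exact hℓ.nonneg _⟩
  have d0 : ∀ x, 0 ≤ d x := fun x => le_ciInf fun u => hℓ.nonneg _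
  have dle : ∀ x, ∀ u ∈ U, d x ≤ ℓ (u⁻¹ * x) := fun x u hu => ciInf_le (bdd x) ⟨u, hu⟩
  have dlt : ∀ x t, d x < t → ∃ u ∈ U, ℓ (u⁻¹ * x) < t := fun x t ht => by
    obtain ⟨u, hu⟩ := exists_lt_of_ciInf_lt ht
    exact ⟨u, u.2, hu⟩
  have dlip : ∀ x h, d (x * h) ≤ d x + ℓ h := fun x h => by
    refine le_of_forall_gt fun t ht => ?_
    obtain ⟨u, hu, h2⟩ := dlt x (t - ℓ h) (by linarith)
    have h3 := dle (x * h) u hu
    have h4 := hℓ.mul_le (u⁻¹ * x) h
    rw [mul_assoc] at h4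
    linarith
  refine ⟨fun x => max 0 (1 - d x), fun x y hy => ?_, fun x => le_max_left _ _,
    fun x => max_le zero_le_one (by linarith [d0 x]), fun x hx => ?_, fun x hx => ?_, fun x h => ?_⟩
  · rcases lt_max_iff.1 hy with hy | hy
    · exact Eventually.of_forall fun x' => lt_max_of_lt_left hy
    · obtain ⟨u, hu, h2⟩ := dlt x (1 - y) (by linarith)
      have hc : ContinuousAt (fun x' => x' * x⁻¹ * u) x := by fun_prop
      have hm : U ∈ 𝓝 (x * x⁻¹ * u) := by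
        rw [mul_inv_cancel, one_mul]
        exact hU.mem_nhds hu
      filter_upwards [hc hm] with x' hx'
      have h3 := dle x' _ hx'
      rw [show (x' * x⁻¹ * u)⁻¹ * x' = u⁻¹ * x by group] at h3
      exact lt_max_of_lt_right (by linarith)
  · have h2 := dle x x hx
    rw [inv_mul_cancel, hℓ.one] at h2
    change max 0 (1 - d x) = 1
    rw [le_antisymm h2 (d0 x), sub_zero, max_eq_right zero_le_one]
  · have h2 : d x < 1 := by
      by_contra h3
      exact hx (max_eq_left (by linarith [not_lt.1 h3]))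
    obtain ⟨u, hu, h3⟩ := dlt x 1 h2
    exact ⟨u, hu, _, hℓ.mem _ h3, by group⟩
  · have h2 := dlip x h
    have h3 := dlip (x * h) h⁻¹
    rw [mul_inv_cancel_right, hℓ.inv] at h3
    refine le_trans ?_ (show |(1 - d (x * h)) - (1 - d x)| ≤ ℓ h from abs_le.2 ⟨by linarith, by linarith⟩)
    simp only [max_comm (0:ℝ)]
    exact abs_max_sub_max_le_abs _ _ _

end Crest.Agent.R217.NSS
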