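import Crest.Agent.R217.NSS.FnRep
import Crest.Agent.R217.NSS.Bump

/-! # NSS groups are Lie groups: the convolution package -/

set_option autoImplicit false
open Topology Filter MeasureTheory
open scoped Pointwise BoundedContinuousFunction

namespace Crest.Agent.R217.NSS

variable {G : Type*} [Group G] [TopologicalSpace G] [IsTopologicalGroup G] [T2Space G]
  [LocallyCompactSpace G]

theorem conv_key {X : Type*} [MeasurableSpace X] (ν : Measure X) (S : Set X) (f : X → ℝ) (C : ℝ)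
    (hS : MeasurableSet S) (hν : ν S ≠ ⊤) (hf : Measurable f) (h1 : ∀ y ∈ S, |f y| ≤ C)
    (h2 : ∀ y ∉ S, f y = 0) : Integrable f ν ∧ |∫ y, f y ∂ν| ≤ C * ν.real S := by
  have hg : Integrable (S.indicator fun _ => C) ν :=
    (integrable_indicator_iff hS).2 (integrableOn_const hν)
  have hb : ∀ᵐ y ∂ν, ‖f y‖ ≤ S.indicator (fun _ => C) y := by
    refine Eventually.of_forall fun y => ?_
    by_cases hy : y ∈ S
    · rw [Set.indicator_of_mem hy]; exact h1 y hy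
    · rw [Set.indicator_of_notMem hy, h2 y hy, norm_zero]
  refine ⟨hg.mono' hf.aestronglyMeasurable hb, ?_⟩
  have := norm_integral_le_of_norm_le hg hb
  rwa [integral_indicator_const _ hS, smul_eq_mul, mul_comm] at this

/-- Scalar form of the convolution estimates. -/
theorem IsSetup.conv_scalar {U K : Set G} (hS : IsSetup U K) :
    ∃ B c : ℝ, 0 < B ∧ 0 < c ∧ ∀ ℓ₁ ℓ₂ : G → ℝ, IsLen U ℓ₁ → IsLen U ℓ₂ →
      ∃ φ : G → ℝ, (∀ x, |φ x| ≤ B) ∧ c ≤ φ 1 ∧ (∀ x, x ∉ K → φ x = 0) ∧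
        (∀ h x, |φ (x * h) - φ x| ≤ B * ℓ₁ h) ∧
        (∀ g h (b : ℝ), h ∈ K → (∀ y ∈ K * K, ℓ₂ (y * g * y⁻¹) ≤ b) →
          ∀ x, |φ (x * g * h) - φ (x * g) - φ (x * h) + φ x| ≤ B * ℓ₁ h * b) := by
  borelize G
  set ν : Measure G := (Measure.haar : Measure G).inv with hν
  have hKm : MeasurableSet K := hS.isCompact.isClosed.measurableSet
  have hKf : ν K ≠ ⊤ := hS.isCompact.measure_lt_top.ne
  have hUf : ν U ≠ ⊤ := ne_top_of_le_ne_top hKf (measure_mono hS.subset)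
  have hU0 : 0 < ν.real U :=
    ENNReal.toReal_pos (hS.isOpen.measure_pos ν ⟨1, hS.one_mem⟩).ne' hUf
  have hUK : ν.real U ≤ ν.real K := measureReal_mono hS.subset hKf
  have hSm : ∀ h : G, MeasurableSet (K ∪ (fun y => y * h) ⁻¹' K) :=
    fun h => hKm.union (measurable_mul_const h hKm)
  have hSle : ∀ h : G, ν (K ∪ (fun y => y * h) ⁻¹' K) ≤ ν K + ν K := fun h => by
    refine (measure_union_le _ _).trans ?_
    rw [measure_preimage_mul_right]
  have hSf : ∀ h : G, ν (K ∪ (fun y => y * h) ⁻¹' K) ≠ ⊤ :=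
    fun h => ne_top_of_le_ne_top (ENNReal.add_ne_top.2 ⟨hKf, hKf⟩) (hSle h)
  have hSr : ∀ h : G, ν.real (K ∪ (fun y => y * h) ⁻¹' K) ≤ 2 * ν.real K := fun h => by
    have := ENNReal.toReal_mono (ENNReal.add_ne_top.2 ⟨hKf, hKf⟩) (hSle h)
    rw [ENNReal.toReal_add hKf hKf] at this
    simp only [Measure.real]
    linarith
  refine ⟨2 * ν.real K, ν.real U, by linarith, hU0, fun ℓ₁ ℓ₂ h₁ h₂ => ?_⟩
  obtain ⟨ψ, ψl, ψ0, ψ1, ψU, ψs, ψd⟩ := exists_bump U hS.isOpen hS.one_mem ℓ₁ h₁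
  obtain ⟨η, ηl, η0, η1, ηU, ηs, ηd⟩ := exists_bump U hS.isOpen hS.one_mem ℓ₂ h₂
  have ψm : Measurable ψ := ψl.measurable
  have ηm : ∀ x : G, Measurable fun y => η (x * y⁻¹) :=
    fun x => ηl.measurable.comp (measurable_inv.const_mul x)
  have ψh : ∀ h : G, Measurable fun y => ψ (y * h) := fun h => ψm.comp (measurable_mul_const h)
  have ψK : ∀ y ∉ K, ψ y = 0 := fun y hy => by
    by_contra h0
    obtain ⟨a, ha, b, hb, rfl⟩ := ψs y h0
    exact hy (by simpa using hS.mul4 a ha b hb 1 hS.one_mem 1 hS.one_mem)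
  have ψD : ∀ h : G, ∀ y ∉ K ∪ (fun y => y * h) ⁻¹' K, ψ (y * h) - ψ y = 0 := fun h y hy => by
    rw [ψK y (fun hh => hy (Or.inl hh)), ψK (y * h) (fun hh => hy (Or.inr hh)), sub_zero]
  have ηa : ∀ x, |η x| ≤ 1 := fun x => by rw [abs_of_nonneg (η0 x)]; exact η1 x
  have k1 : ∀ x, Integrable (fun y => η (x * y⁻¹) * ψ y) ν ∧
      |∫ y, η (x * y⁻¹) * ψ y ∂ν| ≤ 1 * ν.real K := fun x =>
    conv_key ν K _ 1 hKm hKf ((ηm x).mul ψm) (fun y _ => by
      rw [abs_mul, abs_of_nonneg (ψ0 y)]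
      exact mul_le_one₀ (ηa _) (ψ0 y) (ψ1 y)) (fun y hy => by rw [ψK y hy, mul_zero])
  have k2 : ∀ x h, Integrable (fun y => η (x * y⁻¹) * (ψ (y * h) - ψ y)) ν ∧
      |∫ y, η (x * y⁻¹) * (ψ (y * h) - ψ y) ∂ν| ≤ ℓ₁ h * ν.real (K ∪ (fun y => y * h) ⁻¹' K) :=
    fun x h => conv_key ν _ _ _ (hSm h) (hSf h) ((ηm x).mul ((ψh h).sub ψm)) (fun y _ => by
      rw [abs_mul]
      exact (mul_le_of_le_one_left (abs_nonneg _) (ηa _)).trans (ψd y h))
      (fun y hy => by rw [ψD h y hy, mul_zero])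
  have k3 : ∀ x h, (∫ y, η (x * h * y⁻¹) * ψ y ∂ν) - ∫ y, η (x * y⁻¹) * ψ y ∂ν =
      ∫ y, η (x * y⁻¹) * (ψ (y * h) - ψ y) ∂ν := fun x h => by
    have e := integral_mul_right_eq_self (μ := ν) (fun y => η (x * h * y⁻¹) * ψ y) h
    rw [← e, sub_eq_iff_eq_add, ← integral_add (k2 x h).1 (k1 x).1]
    congr 1
    funext y
    rw [show x * h * (y * h)⁻¹ = x * y⁻¹ by group]
    ring
  refine ⟨fun x => ∫ y, η (x * y⁻¹) * ψ y ∂ν, fun x => ?_, ?_, fun x hx => ?_, fun h x => ?_,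
    fun g h b hh hb x => ?_⟩
  · have := (k1 x).2
    linarith
  · have hg : Integrable (U.indicator fun _ => (1:ℝ)) ν :=
      (integrable_indicator_iff hS.isOpen.measurableSet).2 (integrableOn_const hUf)
    have := integral_mono hg (k1 1).1 (fun y => by
      by_cases hy : y ∈ U
      · simp only [Set.indicator_of_mem hy, one_mul]
        rw [ηU _ (hS.inv_mem y hy), ψU y hy, mul_one]
      · simp only [Set.indicator_of_notMem hy]
        exact mul_nonneg (η0 _) (ψ0 _))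
    rwa [integral_indicator_const _ hS.isOpen.measurableSet, smul_eq_mul, mul_one] at this
  · have : ∀ y, η (x * y⁻¹) * ψ y = 0 := fun y => by
      by_contra h0
      obtain ⟨a, ha, b, hb, hab⟩ := ηs _ (left_ne_zero_of_mul h0)
      obtain ⟨c, hc, d, hd, hcd⟩ := ψs _ (right_ne_zero_of_mul h0)
      refine hx ?_
      rw [show x = a * b * c * d by rw [mul_assoc _ c, ← hcd, ← hab]; group]
      exact hS.mul4 a ha b hb c hc d hd
    simp [this]
  · simp only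
    rw [k3, mul_comm _ (ℓ₁ h)]
    exact (k2 x h).2.trans (mul_le_mul_of_nonneg_left (hSr h) (h₁.nonneg h))
  · simp only
    have hb0 : 0 ≤ b := (h₂.nonneg _).trans
      (hb (1 * 1) (Set.mul_mem_mul hS.one_memK hS.one_memK))
    have k4 := (conv_key ν _ (fun y => (η (x * g * y⁻¹) - η (x * y⁻¹)) * (ψ (y * h) - ψ y))
      (b * ℓ₁ h) (hSm h) (hSf h) (((ηm _).sub (ηm _)).mul ((ψh h).sub ψm)) (fun y hy => by
        have hyK : y ∈ K * K := by
          rcases hy with hy | hy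
          · simpa using Set.mul_mem_mul hy hS.one_memK
          · simpa using Set.mul_mem_mul (show y * h ∈ K from hy) (hS.inv_memK h hh)
        rw [abs_mul, show x * g * y⁻¹ = x * y⁻¹ * (y * g * y⁻¹) by group]
        exact mul_le_mul ((ηd _ _).trans (hb y hyK)) (ψd y h) (abs_nonneg _) hb0)
      (fun y hy => by rw [ψD h y hy, mul_zero])).2
    have e : (∫ y, η (x * g * h * y⁻¹) * ψ y ∂ν) - (∫ y, η (x * g * y⁻¹) * ψ y ∂ν) -
        (∫ y, η (x * h * y⁻¹) * ψ y ∂ν) + ∫ y, η (x * y⁻¹) * ψ y ∂ν =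
        ∫ y, (η (x * g * y⁻¹) - η (x * y⁻¹)) * (ψ (y * h) - ψ y) ∂ν := by
      rw [k3 (x * g) h, sub_add, k3 x h, ← integral_sub (k2 _ h).1 (k2 _ h).1]
      congr 1
      funext y
      ring
    rw [e]
    refine k4.trans ?_
    have := mul_le_mul_of_nonneg_left (hSr h) (mul_nonneg hb0 (h₁.nonneg h))
    linarith

/-- The convolution package. -/
theorem IsSetup.conv_package {U K : Set G} (hS : IsSetup U K) :
    ∃ B c : ℝ, 0 < B ∧ 0 < c ∧ ∀ ℓ₁ ℓ₂ : G → ℝ, IsLen U ℓ₁ → IsLen U ℓ₂ →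
      ∃ R : Rep G (Fn G), ‖R.φ‖ ≤ B ∧ (∀ h, R.N h ≤ B * ℓ₁ h) ∧
        (∀ g h (b : ℝ), h ∈ K → (∀ y ∈ K * K, ℓ₂ (y * g * y⁻¹) ≤ b) →
          ‖R.τ g (R.ι h) - R.ι h‖ ≤ B * ℓ₁ h * b) ∧
        (∀ g, R.N g < c → g ∈ K) := by
  obtain ⟨B, c, hB, hc, h⟩ := hS.conv_scalar
  refine ⟨B, c, hB, hc, fun ℓ₁ ℓ₂ h₁ h₂ => ?_⟩
  obtain ⟨φ, hφB, hφ1, hφK, hφd, hφdd⟩ := h ℓ₁ ℓ₂ h₁ h₂
  obtain ⟨R, r1, r2, r3, r4⟩ := exists_rep_of_bounded φ B hB.le hφB
  refine ⟨R, r1, fun g => r3 g _ (mul_nonneg hB.le (h₁.nonneg g)) (hφd g), ?_, ?_⟩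
  · intro g k b hk hb
    have hb0 : 0 ≤ b := (h₂.nonneg _).trans
      (hb (1 * 1) (Set.mul_mem_mul hS.one_memK hS.one_memK))
    exact r4 g k _ (mul_nonneg (mul_nonneg hB.le (h₁.nonneg k)) hb0) (hφdd g k b hk hb)
  · intro g hg
    by_contra hgK
    have h1 := r2 g 1
    rw [one_mul, hφK g hgK, zero_sub, abs_neg] at h1
    have h2 := le_abs_self (φ 1)
    linarith

end Crest.Agent.R217.NSS
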