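import Mathlib

/-! # NSS groups are Lie groups: the escape norm -/

set_option autoImplicit false
open Topology Filter
open scoped Pointwise

namespace Crest.Agent.R217.NSS

variable {G : Type*} [Group G]

/-- The escape norm: the least `a ≥ 0` with `g ^ n ∈ U` whenever `n a < 1`. -/
noncomputable def esc (U : Set G) (g : G) : ℝ :=
  sInf {a : ℝ | 0 ≤ a ∧ ∀ n : ℕ, (n : ℝ) * a < 1 → g ^ n ∈ U}

theorem esc_nonneg (U : Set G) (g : G) : 0 ≤ esc U g := by
  exact Real.sInf_nonneg fun _ h => h.1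

theorem esc_le (U : Set G) (g : G) (a : ℝ) (ha : 0 ≤ a)
    (h : ∀ n : ℕ, (n : ℝ) * a < 1 → g ^ n ∈ U) : esc U g ≤ a := by
  exact csInf_le ⟨0, fun _ h => h.1⟩ ⟨ha, h⟩

theorem esc_le_one (U : Set G) (h1 : (1 : G) ∈ U) (g : G) : esc U g ≤ 1 := by
  refine esc_le U g 1 zero_le_one fun n hn => ?_
  have : n = 0 := by
    have : (n : ℝ) < 1 := by simpa using hn
    have : n < 1 := by exact_mod_cast this
    omega
  subst this; simpa using h1

theorem pow_mem_of_esc (U : Set G) (h1 : (1 : G) ∈ U) (g : G) (n : ℕ)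
    (h : (n : ℝ) * esc U g < 1) : g ^ n ∈ U := by
  rcases Nat.eq_zero_or_pos n with rfl | hn
  · simpa using h1
  have hn' : (0 : ℝ) < n := by exact_mod_cast hn
  have hne : {a : ℝ | 0 ≤ a ∧ ∀ n : ℕ, (n : ℝ) * a < 1 → g ^ n ∈ U}.Nonempty := by
    refine ⟨1, zero_le_one, fun k hk => ?_⟩
    have : k = 0 := by
      have : (k : ℝ) < 1 := by simpa using hk
      have : k < 1 := by exact_mod_cast this
      omega
    subst this; simpa using h1
  have h2 : esc U g < 1 / n := by rw [lt_div_iff₀ hn']; linarith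
  obtain ⟨a, ha, hlt⟩ := exists_lt_of_csInf_lt hne h2
  refine ha.2 n ?_
  rw [lt_div_iff₀ hn'] at hlt; linarith

theorem mem_of_esc_lt_one (U : Set G) (h1 : (1 : G) ∈ U) (g : G) (h : esc U g < 1) : g ∈ U := by
  simpa using pow_mem_of_esc U h1 g 1 (by simpa using h)

theorem esc_one (U : Set G) (h1 : (1 : G) ∈ U) : esc U 1 = 0 := by
  exact le_antisymm (esc_le U 1 0 le_rfl fun n _ => by simpa using h1) (esc_nonneg U 1)

theorem esc_inv (U : Set G) (hU : ∀ x ∈ U, x⁻¹ ∈ U) (g : G) : esc U g⁻¹ = esc U g := by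
  unfold esc
  congr 1
  ext a
  simp only [Set.mem_ofPred_eq, inv_pow]
  refine and_congr_right fun _ => forall₂_congr fun n _ => ⟨fun h => ?_, fun h => hU _ h⟩
  simpa using hU _ h

theorem esc_conj_le (U V : Set G) (h1 : (1 : G) ∈ V) (y : G) (hy : ∀ v ∈ V, y * v * y⁻¹ ∈ U)
    (g : G) : esc U (y * g * y⁻¹) ≤ esc V g := by
  refine esc_le U _ _ (esc_nonneg V g) fun n hn => ?_
  rw [conj_pow]
  exact hy _ (pow_mem_of_esc V h1 g n hn)

/-- If `x ≤ A / n + b` whenever `g, …, g^(n-1) ∈ U` (`n ≥ 1`) then `x ≤ A * esc U g + b`. -/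
theorem le_esc_of_forall (U : Set G) (h1 : (1 : G) ∈ U) (g : G) (x A b : ℝ) (hA : 0 ≤ A)
    (h : ∀ n : ℕ, 1 ≤ n → (∀ i < n, g ^ i ∈ U) → x ≤ A / n + b) : x ≤ A * esc U g + b := by
  have key : ∀ n : ℕ, 1 ≤ n → ((n : ℝ) - 1) * esc U g < 1 → x ≤ A / n + b := by
    intro n hn hlt
    refine h n hn fun i hi => pow_mem_of_esc U h1 g i (lt_of_le_of_lt ?_ hlt)
    refine mul_le_mul_of_nonneg_right ?_ (esc_nonneg U g)
    have : (i : ℝ) + 1 ≤ n := by exact_mod_cast hi
    linarith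
  rcases (esc_nonneg U g).eq_or_lt with h0 | h0
  · rw [← h0, mul_zero, zero_add]
    have ht : Tendsto (fun n : ℕ => A / n + b) atTop (𝓝 (0 + b)) :=
      (tendsto_const_div_atTop_nhds_zero_nat A).add_const b
    rw [zero_add] at ht
    refine ge_of_tendsto ht ?_
    filter_upwards [eventually_ge_atTop 1] with n hn
    exact key n hn (by rw [← h0]; simp)
  · have hinv : 0 < 1 / esc U g := by positivity
    have h2 := key ⌈1 / esc U g⌉₊ (Nat.ceil_pos.2 hinv) (by
      have := Nat.ceil_lt_add_one hinv.le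
      rw [← lt_div_iff₀ h0]; linarith)
    refine h2.trans (add_le_add_left ?_ b)
    have h3 : 1 / esc U g ≤ ⌈1 / esc U g⌉₊ := Nat.le_ceil _
    calc A / ⌈1 / esc U g⌉₊ ≤ A / (1 / esc U g) := div_le_div_of_nonneg_left hA hinv h3
      _ = A * esc U g := by field_simp

variable [TopologicalSpace G]

/-- The standing choice of neighbourhoods. -/
structure IsSetup (U K : Set G) : Prop where
  isOpen : IsOpen U
  one_mem : (1 : G) ∈ U
  inv_mem : ∀ x ∈ U, x⁻¹ ∈ U
  isCompact : IsCompact K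
  inv_memK : ∀ x ∈ K, x⁻¹ ∈ K
  mul4 : ∀ a ∈ U, ∀ b ∈ U, ∀ c ∈ U, ∀ d ∈ U, a * b * c * d ∈ K
  nss : ∀ g : G, (∀ n : ℕ, g ^ n ∈ K) → g = 1

theorem IsSetup.subset {U K : Set G} (h : IsSetup U K) : U ⊆ K := fun a ha => by
  simpa using h.mul4 a ha 1 h.one_mem 1 h.one_mem 1 h.one_mem

theorem IsSetup.one_memK {U K : Set G} (h : IsSetup U K) : (1 : G) ∈ K := h.subset h.one_mem

theorem IsSetup.mem_nhds {U K : Set G} (h : IsSetup U K) : U ∈ 𝓝 (1 : G) :=
  h.isOpen.mem_nhds h.one_mem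

variable [IsTopologicalGroup G]

theorem exists_setup [T2Space G] [LocallyCompactSpace G]
    (h : ∃ U ∈ 𝓝 (1 : G), ∀ H : Subgroup G, (H : Set G) ⊆ U → H = ⊥) :
    ∃ U K : Set G, IsSetup U K := by
  obtain ⟨U0, hU0, hnss⟩ := h
  obtain ⟨K0, hK0, hK0U, hK0c⟩ := local_compact_nhds hU0
  have hK : K0 ∩ K0⁻¹ ∈ 𝓝 (1 : G) := inter_mem hK0 (inv_mem_nhds_one G hK0)
  obtain ⟨V, hV, hV4⟩ := exists_nhds_one_split4 hK
  have hV1 : (1 : G) ∈ interior V := mem_interior_iff_mem_nhds.2 hV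
  refine ⟨interior V ∩ (interior V)⁻¹, K0 ∩ K0⁻¹, isOpen_interior.inter isOpen_interior.inv,
    ⟨hV1, by simpa using hV1⟩, fun x hx => ⟨hx.2, by simpa using hx.1⟩,
    hK0c.inter hK0c.inv, fun x hx => ⟨hx.2, by simpa using hx.1⟩,
    fun a ha b hb c hc d hd => hV4 (interior_subset ha.1) (interior_subset hb.1)
      (interior_subset hc.1) (interior_subset hd.1), fun g hg => ?_⟩
  have h1 : Subgroup.zpowers g = ⊥ := by
    refine hnss _ fun x hx => hK0U ?_
    obtain ⟨k, rfl⟩ := Subgroup.mem_zpowers_iff.1 hx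
    obtain ⟨m, rfl | rfl⟩ := k.eq_nat_or_neg
    · simpa using (hg m).1
    · simpa using (hg m).2
  exact Subgroup.zpowers_eq_bot.1 h1

/-- All escape norms of small neighbourhoods are comparable. -/
theorem IsSetup.esc_compare [T2Space G] {U K : Set G} (h : IsSetup U K) (V : Set G)
    (hV : V ∈ 𝓝 (1 : G)) : ∃ m : ℝ, 0 < m ∧ ∀ g, esc V g ≤ m * esc K g := by
  have hc : IsCompact (K \ interior V) := h.isCompact.diff isOpen_interior
  have hcl : IsClosed K := h.isCompact.isClosed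
  obtain ⟨t, ht⟩ := hc.elim_finite_subcover (fun i : ℕ => {x : G | x ^ i ∉ K})
    (fun i => hcl.isOpen_compl.preimage (continuous_pow i)) (by
      intro x hx
      by_contra hcon
      simp only [Set.mem_iUnion, Set.mem_ofPred_eq, not_exists, not_not] at hcon
      have := h.nss x hcon
      subst this
      exact hx.2 (mem_interior_iff_mem_nhds.2 hV))
  obtain ⟨m, hm⟩ : ∃ m : ℕ, m = t.sup id + 1 := ⟨_, rfl⟩
  have hm1 : 1 ≤ m := by omega
  refine ⟨m, by exact_mod_cast hm1, fun g => ?_⟩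
  refine esc_le V g _ (mul_nonneg (Nat.cast_nonneg _) (esc_nonneg K g)) fun n hn => ?_
  have key : ∀ i ≤ m, (g ^ n) ^ i ∈ K := by
    intro i hi
    rw [← pow_mul]
    refine pow_mem_of_esc K h.one_memK g _ (lt_of_le_of_lt ?_ hn)
    rw [← mul_assoc]
    refine mul_le_mul_of_nonneg_right ?_ (esc_nonneg K g)
    exact_mod_cast Nat.mul_le_mul_left n hi
  by_contra hcon
  have h1 : g ^ n ∈ K \ interior V :=
    ⟨by simpa using key 1 hm1, fun h' => hcon (interior_subset h')⟩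
  obtain ⟨i, hi, hi'⟩ := Set.mem_iUnion₂.1 (ht h1)
  have : i ≤ t.sup id := Finset.le_sup (f := id) hi
  exact hi' (key i (by omega))

theorem IsSetup.esc_compare' [T2Space G] {U K : Set G} (h : IsSetup U K) (V : Set G)
    (hV : V ∈ 𝓝 (1 : G)) : ∃ m : ℝ, 0 < m ∧ ∀ g, esc V g ≤ m * esc U g := by
  obtain ⟨m, hm, hle⟩ := h.esc_compare V hV
  refine ⟨m, hm, fun g => (hle g).trans (mul_le_mul_of_nonneg_left ?_ hm.le)⟩
  simpa using esc_conj_le K U h.one_mem 1 (fun v hv => by simpa using h.subset hv) g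

theorem tendsto_esc (U : Set G) (hU : U ∈ 𝓝 (1 : G)) : Tendsto (esc U) (𝓝 1) (𝓝 0) := by
  refine tendsto_order.2 ⟨fun a ha => Eventually.of_forall fun g =>
    lt_of_lt_of_le ha (esc_nonneg U g), fun ε hε => ?_⟩
  obtain ⟨N, hN⟩ := exists_nat_one_div_lt hε
  have hev : ∀ᶠ g in 𝓝 (1 : G), ∀ i ∈ Finset.range (N + 1), g ^ i ∈ U := by
    refine (Filter.eventually_all_finset _).2 fun i _ => ?_
    have : Tendsto (fun g : G => g ^ i) (𝓝 1) (𝓝 1) := by
      simpa using (continuous_pow i).tendsto (1 : G)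
    exact this hU
  filter_upwards [hev] with g hg
  refine lt_of_le_of_lt (esc_le U g _ (by positivity) fun n hn => hg n ?_) hN
  rw [mul_one_div, div_lt_one (by positivity)] at hn
  rw [Finset.mem_range]
  exact_mod_cast hn

theorem exists_conj_nhds (S : Set G) (hS : IsCompact S) (U : Set G) (hU : U ∈ 𝓝 (1 : G)) :
    ∃ V ∈ 𝓝 (1 : G), ∀ y ∈ S, ∀ v ∈ V, y * v * y⁻¹ ∈ U := by
  have : ∀ᶠ v in 𝓝 (1 : G), ∀ y ∈ S, y * v * y⁻¹ ∈ U := by
    refine hS.eventually_forall_of_forall_eventually (x₀ := 1)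
      (P := fun v y => y * v * y⁻¹ ∈ U) fun y _ => ?_
    have hc : Continuous fun z : G × G => z.2 * z.1 * z.2⁻¹ := by fun_prop
    have := hc.tendsto (1, y)
    simp only [mul_one, mul_inv_cancel] at this
    exact this hU
  exact ⟨_, this, fun y hy v hv => hv y hy⟩

end Crest.Agent.R217.NSS
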