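import Crest.Agent.R217.NSS.Rep

/-! # NSS groups are Lie groups: the right regular representation on bounded functions -/

set_option autoImplicit false
open Topology Filter
open scoped BoundedContinuousFunction

namespace Crest.Agent.R217.NSS

/-- Bounded real functions on `G` with the sup norm. -/
abbrev Fn (G : Type*) := WithDiscreteTopology G →ᵇ ℝ

variable {G : Type*} [Group G]

/-- right translation of a bounded function -/
noncomputable def fnShift (g : G) (f : Fn G) : Fn G :=
  f.compContinuous ⟨fun x => .toTopology _ (x.ofTopology * g), continuous_of_discreteTopology⟩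

theorem fnShift_apply (g : G) (f : Fn G) (x : WithDiscreteTopology G) :
    fnShift g f x = f (.toTopology _ (x.ofTopology * g)) := rfl

theorem fnShift_mul (g h : G) (f : Fn G) : fnShift (g * h) f = fnShift g (fnShift h f) := by
  ext x
  simp only [fnShift_apply, mul_assoc]

theorem fnShift_one (f : Fn G) : fnShift (1 : G) f = f := by
  ext x
  simp only [fnShift_apply, mul_one]

theorem norm_fnShift_le (g : G) (f : Fn G) : ‖fnShift g f‖ ≤ ‖f‖ :=
  (BoundedContinuousFunction.norm_le (norm_nonneg _)).2 fun _ => f.norm_coe_le_norm _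

/-- right translation as a linear isometry -/
noncomputable def fnEquiv (g : G) : Fn G ≃ₗᵢ[ℝ] Fn G where
  toFun := fnShift g
  invFun := fnShift g⁻¹
  map_add' _ _ := rfl
  map_smul' _ _ := rfl
  left_inv f := by rw [← fnShift_mul, inv_mul_cancel, fnShift_one]
  right_inv f := by rw [← fnShift_mul, mul_inv_cancel, fnShift_one]
  norm_map' f := le_antisymm (norm_fnShift_le g f) (by
    have := norm_fnShift_le g⁻¹ (fnShift g f)
    rwa [← fnShift_mul, inv_mul_cancel, fnShift_one] at this)

/-- the right regular representation -/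
noncomputable def fnRep : G →* (Fn G ≃ₗᵢ[ℝ] Fn G) where
  toFun := fnEquiv
  map_one' := LinearIsometryEquiv.ext fnShift_one
  map_mul' g h := LinearIsometryEquiv.ext (fnShift_mul g h)

/-- The right regular representation on bounded functions with a marked bounded function. -/
theorem exists_rep_of_bounded (φ : G → ℝ) (B : ℝ) (hB0 : 0 ≤ B) (hB : ∀ x, |φ x| ≤ B) :
    ∃ R : Rep G (Fn G), ‖R.φ‖ ≤ B ∧
      (∀ g x, |φ (x * g) - φ x| ≤ R.N g) ∧
      (∀ g (a : ℝ), 0 ≤ a → (∀ x, |φ (x * g) - φ x| ≤ a) → R.N g ≤ a) ∧
      (∀ g h (a : ℝ), 0 ≤ a → (∀ x, |φ (x * g * h) - φ (x * g) - φ (x * h) + φ x| ≤ a) →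
        ‖R.τ g (R.ι h) - R.ι h‖ ≤ a) := by
  let R : Rep G (Fn G) := ⟨fnRep, BoundedContinuousFunction.ofNormedAddCommGroupDiscrete
    (fun x => φ x.ofTopology) B fun x => hB _⟩
  refine ⟨R, ?_, fun g x => ?_, fun g a ha h => ?_, fun g h a ha H => ?_⟩
  · exact (BoundedContinuousFunction.norm_le hB0).2 fun x => hB _
  · exact BoundedContinuousFunction.norm_coe_le_norm (R.ι g) (WithTopology.toTopology _ x)
  · exact (BoundedContinuousFunction.norm_le ha).2 fun x => h _
  · refine (BoundedContinuousFunction.norm_le ha).2 fun x => ?_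
    have := H x.ofTopology
    change |φ (x.ofTopology * g * h) - φ (x.ofTopology * g) - (φ (x.ofTopology * h) - φ x.ofTopology)| ≤ a
    rwa [← sub_add]

end Crest.Agent.R217.NSS
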