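import Crest.Agent.R217.NSS.Boot

/-! # NSS groups are Lie groups: existence of Gleason data -/

set_option autoImplicit false
open Topology Filter
open scoped Pointwise

namespace Crest.Agent.R217.NSS

variable {G : Type*} [Group G] [TopologicalSpace G] [IsTopologicalGroup G] [T2Space G]
  [LocallyCompactSpace G]

/-- Rescaling the marked vector normalises the constants. -/
theorem GD.of_const {E : Type*} [NormedAddCommGroup E] [NormedSpace ℝ E] (R : Rep G E)
    (C r : ℝ) (hr : 0 < r)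
    (comm : ∀ g h : G, R.N h < r → ‖R.τ g (R.ι h) - R.ι h‖ ≤ C * (R.N g * R.N h))
    (tends : Tendsto R.N (𝓝 1) (𝓝 0))
    (basis : ∀ V ∈ 𝓝 (1 : G), ∃ ε > 0, ∀ g, R.N g < ε → g ∈ V)
    (conj : ∀ y : G, ∃ C : ℝ, 0 ≤ C ∧ ∀ g, R.N (y * g * y⁻¹) ≤ C * R.N g) :
    Nonempty (GD G E) := by
  obtain ⟨K0, hK0c, hK0⟩ := exists_compact_mem_nhds (1 : G)
  obtain ⟨ε, hε, hεK⟩ := basis K0 hK0
  set lam : ℝ := |C| + 1 / r + 1 / ε + 1 with hlam
  have h1r : 0 < 1 / r := by positivity
  have h1e : 0 < 1 / ε := by positivity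
  have hC := le_abs_self C
  have hC0 := abs_nonneg C
  have hl0 : 0 < lam := by positivity
  have hlC : C ≤ lam := by linarith
  have hlr : ∀ x : ℝ, lam * x ≤ 1 → x < r := by
    intro x hx
    by_contra hcon
    push Not at hcon
    have h1 : 1 / r < lam := by linarith
    rw [div_lt_iff₀ hr] at h1
    nlinarith
  have hle : ∀ x : ℝ, lam * x ≤ 1 → x < ε := by
    intro x hx
    by_contra hcon
    push Not at hcon
    have h1 : 1 / ε < lam := by linarith
    rw [div_lt_iff₀ hε] at h1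
    nlinarith
  let R' : Rep G E := ⟨R.τ, lam • R.φ⟩
  have hι : ∀ g, R'.ι g = lam • R.ι g := by
    intro g
    simp only [Rep.ι, R', map_smul, smul_sub]
  have hN : ∀ g, R'.N g = lam * R.N g := by
    intro g
    rw [← R'.norm_ι, hι, norm_smul, R.norm_ι, Real.norm_of_nonneg hl0.le]
  have hN' : R'.N = fun g => lam * R.N g := funext hN
  have hcι : Continuous R.ι := by
    refine continuous_iff_continuousAt.mpr fun h => ?_
    rw [ContinuousAt, tendsto_iff_norm_sub_tendsto_zero]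
    simp only [R.norm_ι_sub]
    refine tends.comp ?_
    have : ContinuousAt (fun g => h⁻¹ * g) h := by fun_prop
    rwa [ContinuousAt, inv_mul_cancel] at this
  have hcN : Continuous R.N := hcι.norm
  refine ⟨⟨R', ?_, ?_, ?_, ?_, ?_⟩⟩
  · intro g h hh
    rw [hN] at hh
    have h1 := comm g h (hlr _ hh)
    have h2 : R'.τ g (R'.ι h) - R'.ι h = lam • (R.τ g (R.ι h) - R.ι h) := by
      rw [hι]
      simp only [R', map_smul, smul_sub]
    rw [h2, norm_smul, Real.norm_of_nonneg hl0.le, hN, hN]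
    have h3 : 0 ≤ R.N g * R.N h := mul_nonneg (R.N_nonneg g) (R.N_nonneg h)
    have h4 : C * (R.N g * R.N h) ≤ lam * (R.N g * R.N h) := mul_le_mul_of_nonneg_right hlC h3
    calc lam * ‖R.τ g (R.ι h) - R.ι h‖ ≤ lam * (lam * (R.N g * R.N h)) :=
          mul_le_mul_of_nonneg_left (h1.trans h4) hl0.le
      _ = lam * R.N g * (lam * R.N h) := by ring
  · rw [hN']
    simpa using tends.const_mul lam
  · intro V hV
    obtain ⟨δ, hδ, hV⟩ := basis V hV
    refine ⟨lam * δ, mul_pos hl0 hδ, fun g hg => hV g ?_⟩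
    rw [hN] at hg
    exact lt_of_mul_lt_mul_left hg hl0.le
  · refine hK0c.of_isClosed_subset ?_ ?_
    · rw [hN']
      exact isClosed_le (continuous_const.mul hcN) continuous_const
    · intro g hg
      have hg' : R'.N g ≤ 1 := hg
      rw [hN] at hg'
      exact hεK g (hle _ hg')
  · intro y
    obtain ⟨D, hD, h⟩ := conj y
    refine ⟨D, hD, fun g => ?_⟩
    rw [hN, hN]
    calc lam * R.N (y * g * y⁻¹) ≤ lam * (D * R.N g) := mul_le_mul_of_nonneg_left (h g) hl0.le
      _ = D * (lam * R.N g) := by ring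

theorem IsSetup.exists_GD {U K : Set G} (hS : IsSetup U K) : Nonempty (GD G (Fn G)) := by
  obtain ⟨M, hM, hboot⟩ := hS.boot
  have hℓ := isLen_hull U hS.one_mem (esc U) (esc_nonneg U) (esc_inv U hS.inv_mem) M hM hboot
  obtain ⟨B, c, hB, hc, h⟩ := hS.conv_package
  obtain ⟨R, -, hNℓ, hcomm, hK⟩ := h _ _ hℓ hℓ
  have hℓe : ∀ g, M * hull (esc U) g ≤ M * esc U g := fun g =>
    mul_le_mul_of_nonneg_left (hull_le_self _ (esc_nonneg U) g) hM
  have hesc : ∀ V ∈ 𝓝 (1 : G), ∃ m : ℝ, 0 < m ∧ ∀ g, esc V g ≤ m * R.N g := by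
    intro V hV
    obtain ⟨m, hm, h⟩ := hS.esc_compare V hV
    refine ⟨m / c, div_pos hm hc, fun g => (h g).trans ?_⟩
    calc m * esc K g ≤ m * (R.N g / c) :=
          mul_le_mul_of_nonneg_left (R.esc_le_N K c hc hK g) hm.le
      _ = m / c * R.N g := by ring
  have hconj : ∀ S : Set G, IsCompact S → ∃ m : ℝ, 0 < m ∧
      ∀ y ∈ S, ∀ g, esc U (y * g * y⁻¹) ≤ m * R.N g := by
    intro S hSc
    obtain ⟨V, hV, hy⟩ := exists_conj_nhds S hSc U hS.mem_nhds
    obtain ⟨m, hm, h⟩ := hesc V hV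
    exact ⟨m, hm, fun y hyS g =>
      (esc_conj_le U V (mem_of_mem_nhds hV) y (hy y hyS) g).trans (h g)⟩
  have hNe : ∀ g, R.N g ≤ B * (M * esc U g) := fun g =>
    (hNℓ g).trans (mul_le_mul_of_nonneg_left (hℓe g) hB.le)
  obtain ⟨m, hm, hmU⟩ := hesc U hS.mem_nhds
  obtain ⟨m', hm', hm'c⟩ := hconj (K * K) (hS.isCompact.mul hS.isCompact)
  refine GD.of_const R (B * (M * m) * (M * m')) c hc ?_ ?_ ?_ ?_
  · intro g k hk
    have h1 := hcomm g k (M * (m' * R.N g)) (hK k hk) (fun y hy =>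
      (hℓe _).trans (mul_le_mul_of_nonneg_left (hm'c y hy g) hM))
    refine h1.trans ?_
    have h2 : M * hull (esc U) k ≤ M * (m * R.N k) :=
      (hℓe k).trans (mul_le_mul_of_nonneg_left (hmU k) hM)
    have h3 : 0 ≤ M * (m' * R.N g) := mul_nonneg hM (mul_nonneg hm'.le (R.N_nonneg g))
    calc B * (M * hull (esc U) k) * (M * (m' * R.N g))
        ≤ B * (M * (m * R.N k)) * (M * (m' * R.N g)) :=
          mul_le_mul_of_nonneg_right (mul_le_mul_of_nonneg_left h2 hB.le) h3
      _ = B * (M * m) * (M * m') * (R.N g * R.N k) := by ring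
  · refine squeeze_zero R.N_nonneg hNe ?_
    simpa using ((tendsto_esc U hS.mem_nhds).const_mul M).const_mul B
  · intro V hV
    obtain ⟨a, ha, h⟩ := hesc V hV
    refine ⟨1 / a, by positivity, fun g hg => ?_⟩
    refine mem_of_esc_lt_one V (mem_of_mem_nhds hV) g ((h g).trans_lt ?_)
    rw [lt_div_iff₀ ha] at hg
    linarith
  · intro y
    obtain ⟨a, ha, h⟩ := hconj {y} isCompact_singleton
    refine ⟨B * (M * a), by positivity, fun g => (hNe _).trans ?_⟩
    have h1 := h y (Set.mem_singleton y) g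
    calc B * (M * esc U (y * g * y⁻¹)) ≤ B * (M * (a * R.N g)) :=
          mul_le_mul_of_nonneg_left (mul_le_mul_of_nonneg_left h1 hM) hB.le
      _ = B * (M * a) * R.N g := by ring

end Crest.Agent.R217.NSS
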