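import Crest.Agent.R217.NSS.Esc

/-! # NSS groups are Lie groups: subadditive hulls and length functions -/

set_option autoImplicit false
open Topology Filter
open scoped Pointwise

namespace Crest.Agent.R217.NSS

variable {G : Type*} [Group G]

/-- The largest subadditive function below `a` (vanishing at `1`). -/
noncomputable def hull (a : G → ℝ) (g : G) : ℝ :=
  sInf {s : ℝ | ∃ l : List G, l.prod = g ∧ s = (l.map a).sum}

/-- A symmetric length function whose open unit ball lies in `U`. -/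
structure IsLen (U : Set G) (ℓ : G → ℝ) : Prop where
  nonneg : ∀ g, 0 ≤ ℓ g
  one : ℓ 1 = 0
  mul_le : ∀ g h, ℓ (g * h) ≤ ℓ g + ℓ h
  inv : ∀ g, ℓ g⁻¹ = ℓ g
  mem : ∀ g, ℓ g < 1 → g ∈ U

omit [Group G] in
theorem hull_sum_nonneg (a : G → ℝ) (ha : ∀ g, 0 ≤ a g) (l : List G) : 0 ≤ (l.map a).sum :=
  List.sum_nonneg fun x hx => by
    obtain ⟨y, -, rfl⟩ := List.mem_map.1 hx
    exact ha y

theorem hull_set_nonempty (a : G → ℝ) (g : G) :
    {s : ℝ | ∃ l : List G, l.prod = g ∧ s = (l.map a).sum}.Nonempty :=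
  ⟨_, [g], by simp, rfl⟩

theorem hull_exists_lt (a : G → ℝ) (g : G) {x : ℝ} (h : hull a g < x) :
    ∃ l : List G, l.prod = g ∧ (l.map a).sum < x := by
  obtain ⟨_, ⟨l, hl, rfl⟩, h2⟩ := exists_lt_of_csInf_lt (hull_set_nonempty a g) h
  exact ⟨l, hl, h2⟩

omit [Group G] in
theorem hull_sum_add (a : G → ℝ) (ε : ℝ) (l : List G) :
    (l.map fun x => a x + ε).sum = (l.map a).sum + ε * l.length := by
  induction l with
  | nil => simp
  | cons x l ih => simp only [List.map_cons, List.sum_cons, ih, List.length_cons]; push_cast; ring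

theorem hull_exists_nhds [TopologicalSpace G] [IsTopologicalGroup G] (n : ℕ) :
    ∀ U ∈ 𝓝 (1 : G), ∃ V ∈ 𝓝 (1 : G), ∀ l : List G, l.length ≤ n → (∀ x ∈ l, x ∈ V) →
      l.prod ∈ U := by
  induction n with
  | zero =>
    intro U hU
    refine ⟨U, hU, fun l hl _ => ?_⟩
    rw [List.length_eq_zero_iff.1 (Nat.le_zero.1 hl)]
    exact mem_of_mem_nhds hU
  | succ n ih =>
    intro U hU
    obtain ⟨W, hW, hWU⟩ := exists_nhds_one_split hU
    obtain ⟨V, hV, hVW⟩ := ih W hW
    refine ⟨V ∩ W, inter_mem hV hW, fun l hl hm => ?_⟩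
    cases l with
    | nil => exact mem_of_mem_nhds hU
    | cons x l =>
      rw [List.prod_cons]
      exact hWU _ (hm x List.mem_cons_self).2 _ (hVW l (by simpa using hl)
        fun y hy => (hm y (List.mem_cons_of_mem _ hy)).1)

theorem hull_le_sum (a : G → ℝ) (ha : ∀ g, 0 ≤ a g) (l : List G) :
    hull a l.prod ≤ (l.map a).sum := by
  refine csInf_le ⟨0, ?_⟩ ⟨l, rfl, rfl⟩
  rintro _ ⟨l, -, rfl⟩
  exact hull_sum_nonneg a ha l

theorem le_hull_of_forall (a : G → ℝ) (g : G) (x : ℝ)
    (h : ∀ l : List G, l.prod = g → x ≤ (l.map a).sum) : x ≤ hull a g := by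
  refine le_csInf (hull_set_nonempty a g) ?_
  rintro _ ⟨l, hl, rfl⟩
  exact h l hl

theorem hull_nonneg (a : G → ℝ) (ha : ∀ g, 0 ≤ a g) (g : G) : 0 ≤ hull a g := by
  exact le_hull_of_forall a g 0 fun l _ => hull_sum_nonneg a ha l

theorem hull_le_self (a : G → ℝ) (ha : ∀ g, 0 ≤ a g) (g : G) : hull a g ≤ a g := by
  simpa using hull_le_sum a ha [g]

theorem hull_one (a : G → ℝ) (ha : ∀ g, 0 ≤ a g) : hull a 1 = 0 := by
  exact le_antisymm (by simpa using hull_le_sum a ha []) (hull_nonneg a ha 1)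

theorem hull_mul_le (a : G → ℝ) (ha : ∀ g, 0 ≤ a g) (g h : G) :
    hull a (g * h) ≤ hull a g + hull a h := by
  have h1 : hull a (g * h) - hull a h ≤ hull a g := by
    refine le_hull_of_forall a g _ fun l hl => ?_
    have h2 : hull a (g * h) - (l.map a).sum ≤ hull a h := by
      refine le_hull_of_forall a h _ fun l' hl' => ?_
      have := hull_le_sum a ha (l ++ l')
      rw [List.prod_append, hl, hl', List.map_append, List.sum_append] at this
      linarith
    linarith
  linarith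

theorem hull_inv (a : G → ℝ) (hs : ∀ g, a g⁻¹ = a g) (g : G) : hull a g⁻¹ = hull a g := by
  have key : ∀ g : G, {s : ℝ | ∃ l : List G, l.prod = g ∧ s = (l.map a).sum} ⊆
      {s : ℝ | ∃ l : List G, l.prod = g⁻¹ ∧ s = (l.map a).sum} := by
    rintro g _ ⟨l, rfl, rfl⟩
    refine ⟨(l.map (·⁻¹)).reverse, (List.prod_inv_reverse l).symm, ?_⟩
    rw [List.map_reverse, List.sum_reverse, List.map_map]
    congr 2
    exact funext fun x => (hs x).symm
  unfold hull
  congr 1
  refine Set.Subset.antisymm ?_ (key g)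
  simpa using key g⁻¹

/-- A subadditive function below `c * a` is below `c * hull a`. -/
theorem le_mul_hull (a : G → ℝ) (F : G → ℝ) (c : ℝ) (hc : 0 ≤ c) (F1 : F 1 ≤ 0)
    (Fmul : ∀ g h, F (g * h) ≤ F g + F h) (hF : ∀ g, F g ≤ c * a g) (g : G) :
    F g ≤ c * hull a g := by
  rcases hc.eq_or_lt with rfl | hc'
  · simpa using hF g
  · have key : ∀ l : List G, F l.prod ≤ c * (l.map a).sum := by
      intro l
      induction l with
      | nil => simpa using F1
      | cons x l ih =>
        rw [List.prod_cons, List.map_cons, List.sum_cons, mul_add]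
        exact (Fmul _ _).trans (add_le_add (hF x) ih)
    rw [← div_le_iff₀' hc']
    refine le_hull_of_forall a g _ fun l hl => ?_
    rw [div_le_iff₀' hc', ← hl]
    exact key l

theorem isLen_hull (U : Set G) (h1 : (1 : G) ∈ U) (a : G → ℝ) (ha : ∀ g, 0 ≤ a g)
    (hs : ∀ g, a g⁻¹ = a g) (M : ℝ) (hM : 0 ≤ M) (h : ∀ g, esc U g ≤ M * hull a g) :
    IsLen U (fun g => M * hull a g) := by
  refine ⟨fun g => mul_nonneg hM (hull_nonneg a ha g), by simp [hull_one a ha], fun g g' => ?_,
    fun g => by rw [hull_inv a hs], fun g hg => mem_of_esc_lt_one U h1 g ((h g).trans_lt hg)⟩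
  rw [← mul_add]
  exact mul_le_mul_of_nonneg_left (hull_mul_le a ha g g') hM

/-- With the regularisation `+ ε` the comparison holds trivially with constant `1 / ε`. -/
theorem esc_le_hull_eps (U : Set G) (h1 : (1 : G) ∈ U) (ε : ℝ) (hε : 0 < ε) (g : G) :
    esc U g ≤ (1 / ε) * hull (fun x => esc U x + ε) g := by
  rw [one_div, ← div_eq_inv_mul, le_div_iff₀ hε]
  refine le_hull_of_forall _ g _ fun l hl => ?_
  cases l with
  | nil =>
    rw [List.prod_nil] at hl
    simp [← hl, esc_one U h1]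
  | cons x l =>
    rw [hull_sum_add]
    have h2 := hull_sum_nonneg (esc U) (esc_nonneg U) (x :: l)
    have h3 := esc_le_one U h1 g
    have h4 : (1 : ℝ) ≤ ((x :: l).length : ℕ) := by
      exact_mod_cast Nat.succ_le_succ (Nat.zero_le _)
    nlinarith

/-- Removing the regularisation. -/
theorem esc_le_hull_of_eps (U : Set G) (M : ℝ) (hM : 0 ≤ M)
    (h : ∀ ε > 0, ∀ g, esc U g ≤ M * hull (fun x => esc U x + ε) g) (g : G) :
    esc U g ≤ M * hull (esc U) g := by
  rcases hM.eq_or_lt with rfl | hM'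
  · simpa using h 1 one_pos g
  · rw [← div_le_iff₀' hM']
    refine le_hull_of_forall _ g _ fun l hl => ?_
    refine le_of_forall_pos_le_add fun δ hδ => ?_
    have hl0 : (0 : ℝ) ≤ l.length := Nat.cast_nonneg _
    have hε : 0 < δ / (l.length + 1) := by positivity
    have h1 := h _ hε g
    have h2 := hull_le_sum (fun x => esc U x + δ / (l.length + 1))
      (fun x => add_nonneg (esc_nonneg U x) hε.le) l
    rw [hl, hull_sum_add] at h2
    have h3 : δ / (l.length + 1) * l.length ≤ δ := by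
      rw [div_mul_eq_mul_div, div_le_iff₀ (by positivity)]
      nlinarith
    rw [div_le_iff₀' hM']
    exact h1.trans (mul_le_mul_of_nonneg_left (by linarith) hM)

/-- Normalised word length with respect to a small neighbourhood. -/
theorem exists_wordLen [TopologicalSpace G] [IsTopologicalGroup G] (U : Set G)
    (hU : U ∈ 𝓝 (1 : G)) (b : ℝ) (hb : 0 < b) :
    ∃ U₁ ∈ 𝓝 (1 : G), ∃ ℓ : G → ℝ, IsLen U ℓ ∧ ∀ g ∈ U₁, ℓ g ≤ b := by
  classical
  obtain ⟨V, hV, hVU⟩ := hull_exists_nhds ⌈1 / b⌉₊ U hU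
  set W : Set G := V ∩ V⁻¹ with hW
  have hWn : W ∈ 𝓝 (1 : G) := inter_mem hV (inv_mem_nhds_one G hV)
  have hWi : ∀ g, g⁻¹ ∈ W ↔ g ∈ W := fun g => by simp [hW, and_comm]
  set a : G → ℝ := fun g => if g ∈ W then b else 1 with ha
  have ha0 : ∀ g, 0 ≤ a g := fun g => by
    simp only [ha]; split_ifs
    · exact hb.le
    · exact zero_le_one
  refine ⟨W, hWn, hull a, ⟨hull_nonneg a ha0, hull_one a ha0, hull_mul_le a ha0,
    hull_inv a fun g => by simp only [ha, hWi], fun g hg => ?_⟩, fun g hg => ?_⟩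
  · obtain ⟨l, rfl, hl⟩ := hull_exists_lt a g hg
    have h1 : ∀ x ∈ l, x ∈ W := by
      intro x hx
      by_contra hx'
      have h2 : a x ≤ (l.map a).sum :=
        List.single_le_sum (fun y hy => by
          obtain ⟨z, -, rfl⟩ := List.mem_map.1 hy
          exact ha0 z) _ (List.mem_map_of_mem hx)
      simp only [ha, if_neg hx'] at h2
      exact absurd hl (not_lt.2 h2)
    have h2 : (l.map a).sum = l.length * b := by
      rw [List.map_congr_left (g := fun _ => b) fun x hx => by simp only [ha, if_pos (h1 x hx)]]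
      simp
    refine hVU l ?_ fun x hx => (h1 x hx).1
    have h3 : (l.length : ℝ) ≤ 1 / b := by
      rw [le_div_iff₀ hb]; linarith
    exact_mod_cast h3.trans (Nat.le_ceil _)
  · refine (hull_le_self a ha0 g).trans ?_
    simp only [ha, if_pos hg, le_refl]

end Crest.Agent.R217.NSS
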