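import Crest.Agent.R217.NSS.Ultra2

/-! # NSS groups are Lie groups: the Lie algebra (as a normed space) and the exponential map -/

set_option autoImplicit false
open Topology Filter

namespace Crest.Agent.R217.NSS

/-- Lie data: Gleason data with a normed space `L` isometrically identified (via `j`) with the
space of velocities of one-parameter subgroups, and the exponential map `ex`. -/
structure LD (G E L : Type*) [Group G] [TopologicalSpace G] [NormedAddCommGroup E]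
    [NormedSpace ℝ E] [NormedAddCommGroup L] [NormedSpace ℝ L] extends GD G E where
  j : L →ₗᵢ[ℝ] E
  ex : L → G
  isOPS_ex : ∀ v, toGD.IsOPS (j v) (fun t => ex (t • v))
  surj : ∀ v γ, toGD.IsOPS v γ → ∃ w, j w = v

namespace GD

variable {G E : Type*} [Group G] [TopologicalSpace G] [IsTopologicalGroup G] [T2Space G]
  [NormedAddCommGroup E] [NormedSpace ℝ E] (D : GD G E)

/-- The space of velocities of one-parameter subgroups. -/
def L : Submodule ℝ E where
  carrier := {v | ∃ γ, D.IsOPS v γ}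
  add_mem' := fun ⟨_, hv⟩ ⟨_, hw⟩ => D.exists_ops_add hv hw
  zero_mem' := ⟨_, D.isOPS_zero⟩
  smul_mem' := fun c _ ⟨_, hv⟩ => ⟨_, hv.smul c⟩

theorem mem_L {v : E} : v ∈ D.L ↔ ∃ γ, D.IsOPS v γ := Iff.rfl

theorem completeSpace_L [CompleteSpace E] : CompleteSpace D.L :=
  (show IsClosed (D.L : Set E) from D.isClosed_ops).completeSpace_coe

theorem exists_LD : Nonempty (LD G E D.L) := by
  choose ops hops using fun v : D.L => D.mem_L.mp v.2
  have key : ∀ (v : D.L) (t : ℝ), ops (t • v) 1 = ops v t := by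
    intro v t
    have h1 : D.IsOPS ((t • v : D.L) : E) (fun s => ops v (t * s)) := (hops v).smul t
    rw [(hops (t • v)).unique h1]
    simp
  refine ⟨{ toGD := D
            j := D.L.subtypeₗᵢ
            ex := fun v => ops v 1
            isOPS_ex := fun v => ?_
            surj := fun v γ h => ⟨⟨v, γ, h⟩, rfl⟩ }⟩
  simp only [key]
  exact hops v

end GD

namespace LD

variable {G E L : Type*} [Group G] [TopologicalSpace G] [NormedAddCommGroup E] [NormedSpace ℝ E]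
  [NormedAddCommGroup L] [NormedSpace ℝ L] (D : LD G E L)

theorem norm_j (v : L) : ‖D.j v‖ = ‖v‖ := D.j.norm_map v

theorem eq_ex_of_isOPS [T2Space G] (v : L) {γ : ℝ → G} (h : D.IsOPS (D.j v) γ) (t : ℝ) :
    γ t = D.ex (t • v) := congrFun (h.unique (D.isOPS_ex v)) t

theorem ex_add_smul (v : L) (s t : ℝ) :
    D.ex ((s + t) • v) = D.ex (s • v) * D.ex (t • v) := (D.isOPS_ex v).1 s t

theorem ex_zero : D.ex 0 = 1 := by
  have := GD.hom_zero (γ := fun t : ℝ => D.ex (t • (0 : L))) (D.isOPS_ex 0).1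
  simpa using this

theorem ex_neg (v : L) : D.ex (-v) = (D.ex v)⁻¹ := by
  have := GD.hom_neg (γ := fun t : ℝ => D.ex (t • v)) (D.isOPS_ex v).1 1
  simpa using this

theorem N_ex_le (v : L) : D.N (D.ex v) ≤ ‖v‖ := by
  have := (D.isOPS_ex v).N_le 1
  simpa using this

theorem ι_ex_sub (v : L) : ‖D.ι (D.ex v) - D.j v‖ ≤ ‖v‖ ^ 2 := by
  have := (D.isOPS_ex v).quad 1
  simpa using this

theorem dist_ex_le (v w : L) (h : ‖v‖ ≤ 1) : D.N ((D.ex v)⁻¹ * D.ex w) ≤ 2 * ‖w - v‖ := by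
  have := (D.isOPS_ex v).dist_le (D.isOPS_ex w) (by rwa [norm_j])
  rw [← map_sub, norm_j] at this
  simpa using this

theorem ι_ex_mul (v w : L) (h : ‖w‖ ≤ 1) :
    ‖D.ι (D.ex v * D.ex w) - D.j (v + w)‖ ≤ ‖v‖ ^ 2 + ‖w‖ ^ 2 + ‖v‖ * ‖w‖ := by
  have h1 := D.ι_mul_sub (D.ex v) (D.ex w) ((D.N_ex_le w).trans h)
  have h2 := D.ι_ex_sub v
  have h3 := D.ι_ex_sub w
  have h4 : D.N (D.ex v) * D.N (D.ex w) ≤ ‖v‖ * ‖w‖ :=
    mul_le_mul (D.N_ex_le v) (D.N_ex_le w) (D.N_nonneg _) (norm_nonneg _)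
  have h5 : D.ι (D.ex v * D.ex w) - D.j (v + w)
      = (D.ι (D.ex v * D.ex w) - D.ι (D.ex v) - D.ι (D.ex w))
        + ((D.ι (D.ex v) - D.j v) + (D.ι (D.ex w) - D.j w)) := by
    rw [map_add]
    abel
  rw [h5]
  refine (norm_add_le _ _).trans ?_
  have h6 := norm_add_le (D.ι (D.ex v) - D.j v) (D.ι (D.ex w) - D.j w)
  linarith

theorem N_trotter (v w : L) (h : ‖w‖ ≤ 1) :
    D.N ((D.ex (v + w))⁻¹ * (D.ex v * D.ex w)) ≤ 2 * (‖v‖ + ‖w‖) ^ 2 := by
  rw [← D.norm_ι_sub]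
  have h1 := D.ι_ex_mul v w h
  have h2 := D.ι_ex_sub (v + w)
  have h3 : ‖v + w‖ ^ 2 ≤ (‖v‖ + ‖w‖) ^ 2 :=
    pow_le_pow_left₀ (norm_nonneg _) (norm_add_le _ _) 2
  have h4 : D.ι (D.ex v * D.ex w) - D.ι (D.ex (v + w))
      = (D.ι (D.ex v * D.ex w) - D.j (v + w)) - (D.ι (D.ex (v + w)) - D.j (v + w)) := by abel
  rw [h4]
  refine (norm_sub_le _ _).trans ?_
  have h5 : 0 ≤ ‖v‖ * ‖w‖ := mul_nonneg (norm_nonneg _) (norm_nonneg _)
  nlinarith

theorem ex_smul_inj (v w : L) (h : ∀ t : ℝ, D.ex (t • v) = D.ex (t • w)) : v = w := by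
  have h1 := (D.isOPS_ex v).2
  have h2 := (D.isOPS_ex w).2
  simp only [h] at h1
  exact D.j.injective (h1.unique h2)

theorem continuous_ex_smul [IsTopologicalGroup G] (v : L) :
    Continuous (fun t : ℝ => D.ex (t • v)) := by
  refine continuous_iff_continuousAt.mpr fun t => D.tendsto_of_N _ _ ?_
  have h1 : ∀ s : ℝ, D.N ((D.ex (t • v))⁻¹ * D.ex (s • v)) ≤ |s - t| * ‖v‖ := by
    intro s
    have h2 : D.ex (s • v) = D.ex (t • v) * D.ex ((s - t) • v) := by
      rw [← D.ex_add_smul, add_sub_cancel]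
    rw [h2, inv_mul_cancel_left]
    refine (D.N_ex_le _).trans (le_of_eq ?_)
    rw [norm_smul, Real.norm_eq_abs]
  refine squeeze_zero (fun s => D.N_nonneg _) h1 ?_
  have : Continuous (fun s : ℝ => |s - t| * ‖v‖) := by fun_prop
  simpa using this.tendsto t

/-- `ex` is continuous on the open unit ball. -/
theorem continuousAt_ex [IsTopologicalGroup G] (v : L) (hv : ‖v‖ ≤ 1) : ContinuousAt D.ex v := by
  refine D.tendsto_of_N _ _ (squeeze_zero (fun s => D.N_nonneg _)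
    (fun w => D.dist_ex_le v w hv) ?_)
  have : Continuous (fun w : L => 2 * ‖w - v‖) := by fun_prop
  simpa using this.tendsto v

theorem approx [IsTopologicalGroup G] [T2Space G] [CompleteSpace E] (δ : ℝ) (hδ : 0 < δ) :
    ∃ η > 0, ∀ g, D.N g < η → ∃ w : L, ‖D.ι g - D.j w‖ ≤ δ * D.N g := by
  obtain ⟨η, hη, h⟩ := D.exists_ops_approx δ hδ
  refine ⟨η, hη, fun g hg => ?_⟩
  obtain ⟨w, γ, hw, hw'⟩ := h g hg
  obtain ⟨w', rfl⟩ := D.surj w γ hw
  exact ⟨w', hw'⟩

end LD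

end Crest.Agent.R217.NSS
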