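import Mathlib

/-! # A topological group that is locally a Lie group is a Lie group -/

set_option autoImplicit false
open Topology Filter
open scoped Manifold ContDiff

namespace Crest.Agent.R217.NSS

section
variable {G : Type*} [Group G] [TopologicalSpace G] [IsTopologicalGroup G]
  {L : Type*} [NormedAddCommGroup L] [NormedSpace ℝ L]

/-- The translated chart `x ↦ e (g⁻¹ * x)`. -/
def trChart (e : OpenPartialHomeomorph G L) (g : G) : OpenPartialHomeomorph G L :=
  (Homeomorph.mulLeft g⁻¹).transOpenPartialHomeomorph e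

theorem trChart_apply (e : OpenPartialHomeomorph G L) (g x : G) :
    trChart e g x = e (g⁻¹ * x) := rfl

theorem trChart_symm_apply (e : OpenPartialHomeomorph G L) (g : G) (v : L) :
    (trChart e g).symm v = g * e.symm v := by
  simp [trChart, Homeomorph.transOpenPartialHomeomorph, Homeomorph.mulLeft]

theorem mem_trChart_source (e : OpenPartialHomeomorph G L) (g x : G) :
    x ∈ (trChart e g).source ↔ g⁻¹ * x ∈ e.source := Iff.rfl

theorem trChart_target (e : OpenPartialHomeomorph G L) (g : G) :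
    (trChart e g).target = e.target := rfl

/-- The charted space structure by translated charts. -/
@[reducible] def trCharted (e : OpenPartialHomeomorph G L) (h1 : (1 : G) ∈ e.source) :
    ChartedSpace L G where
  atlas := Set.range (trChart e)
  chartAt := trChart e
  mem_chart_source g := by
    rw [mem_trChart_source, inv_mul_cancel]
    exact h1
  chart_mem_atlas g := ⟨g, rfl⟩

theorem lie_of_local_aux (e : OpenPartialHomeomorph G L) (h1 : (1 : G) ∈ e.source)
    (htr : ∀ a : G, ContDiffOn ℝ ∞ (fun v : L => e (a * e.symm v))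
      {v | v ∈ e.target ∧ a * e.symm v ∈ e.source})
    (hmul : ContDiffAt ℝ ∞ (fun p : L × L => e (e.symm p.1 * e.symm p.2)) (e 1, e 1))
    (hinv : ContDiffAt ℝ ∞ (fun x : L => e (e.symm x)⁻¹) (e 1))
    (hconj : ∀ h : G, ContDiffAt ℝ ∞ (fun x : L => e (h * e.symm x * h⁻¹)) (e 1)) :
    ∃ c : ChartedSpace L G, @LieGroup ℝ _ L _ L _ _ 𝓘(ℝ, L) ∞ G _ _ c := by
  letI c : ChartedSpace L G := trCharted e h1
  have hch : ∀ g : G, chartAt L g = trChart e g := fun _ => rfl
  have hs1 : e.symm (e 1) = 1 := e.left_inv h1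
  have hcs : ContinuousAt e.symm (e 1) := e.continuousAt_symm (e.map_source h1)
  have hsrc : e.source ∈ 𝓝 (1 : G) := e.open_source.mem_nhds h1
  have hman : IsManifold 𝓘(ℝ, L) ∞ G := by
    refine isManifold_of_contDiffOn _ _ _ ?_
    rintro _ _ ⟨g, rfl⟩ ⟨h, rfl⟩
    refine ((htr (h⁻¹ * g)).mono ?_).congr ?_
    · intro v hv
      simp only [modelWithCornersSelf_coe, modelWithCornersSelf_coe_symm, Set.preimage_id_eq,
        id_eq, Set.range_id, Set.inter_univ, OpenPartialHomeomorph.trans_source,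
        OpenPartialHomeomorph.symm_source, Set.mem_inter_iff, Set.mem_preimage,
        trChart_target, mem_trChart_source, trChart_symm_apply] at hv
      exact ⟨hv.1, by rw [mul_assoc]; exact hv.2⟩
    · intro v _
      simp only [modelWithCornersSelf_coe, modelWithCornersSelf_coe_symm, Function.comp_apply,
        id_eq, OpenPartialHomeomorph.trans_apply, trChart_apply, trChart_symm_apply, mul_assoc]
  refine ⟨c, { hman with contMDiff_mul := ?_, contMDiff_inv := ?_ }⟩
  · rintro ⟨g, h⟩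
    rw [contMDiffAt_iff]
    refine ⟨continuous_mul.continuousAt, ContDiffAt.contDiffWithinAt ?_⟩
    have hx : extChartAt (𝓘(ℝ, L).prod 𝓘(ℝ, L)) (g, h) (g, h) = (e 1, e 1) := by
      rw [extChartAt_prod]
      simp [hch, trChart_apply]
    rw [hx]
    have hc1 : e (h⁻¹ * e.symm (e 1) * h⁻¹⁻¹) = e 1 := by rw [hs1]; simp
    have h2 : ContDiffAt ℝ ∞ (fun p : L × L => (e (h⁻¹ * e.symm p.1 * h⁻¹⁻¹), p.2))
        (e 1, e 1) :=
      ((hconj h⁻¹).comp (e 1, e 1) contDiffAt_fst).prodMk contDiffAt_snd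
    have h3 := ContDiffAt.comp (e 1, e 1) (g := fun p : L × L => e (e.symm p.1 * e.symm p.2))
      (by rw [hc1]; exact hmul) h2
    refine h3.congr_of_eventuallyEq ?_
    have h4 : ContinuousAt (fun p : L × L => h⁻¹ * e.symm p.1 * h⁻¹⁻¹) (e 1, e 1) :=
      (continuousAt_const.mul (hcs.comp (f := Prod.fst) continuousAt_fst)).mul continuousAt_const
    have h5 : e.source ∈ 𝓝 ((fun p : L × L => h⁻¹ * e.symm p.1 * h⁻¹⁻¹) (e 1, e 1)) := by
      simp only [hs1]
      simpa using hsrc
    filter_upwards [h4 h5] with p hp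
    have hp' : h⁻¹ * e.symm p.1 * h⁻¹⁻¹ ∈ e.source := hp
    rw [extChartAt_prod]
    simp only [Function.comp_apply, e.left_inv hp']
    simp [hch, trChart_apply, trChart_symm_apply, mul_assoc]
  · intro g
    rw [contMDiffAt_iff]
    refine ⟨continuous_inv.continuousAt, ContDiffAt.contDiffWithinAt ?_⟩
    have hx : extChartAt 𝓘(ℝ, L) g g = e 1 := by
      simp [hch, trChart_apply]
    rw [hx]
    have hc1 : e (e.symm (e 1))⁻¹ = e 1 := by rw [hs1]; simp
    have h3 := ContDiffAt.comp (e 1) (g := fun x : L => e (g * e.symm x * g⁻¹))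
      (by rw [hc1]; exact hconj g) hinv
    refine h3.congr_of_eventuallyEq ?_
    have h4 : ContinuousAt (fun x : L => (e.symm x)⁻¹) (e 1) := hcs.inv
    have h5 : e.source ∈ 𝓝 ((fun x : L => (e.symm x)⁻¹) (e 1)) := by
      simp only [hs1]
      simpa using hsrc
    filter_upwards [h4 h5] with p hp
    have hp' : (e.symm p)⁻¹ ∈ e.source := hp
    simp only [Function.comp_apply, e.left_inv hp']
    simp [hch, trChart_apply, trChart_symm_apply, mul_assoc]

end

theorem lie_of_local {G : Type*} [Group G] [TopologicalSpace G] [IsTopologicalGroup G]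
    {L : Type*} [NormedAddCommGroup L] [NormedSpace ℝ L] (e : OpenPartialHomeomorph G L)
    (h1 : (1 : G) ∈ e.source)
    (hmul : ∃ s ∈ 𝓝 (e 1, e 1),
      ContDiffOn ℝ ∞ (fun p : L × L => e (e.symm p.1 * e.symm p.2)) s)
    (hinv : ContDiffAt ℝ ∞ (fun x : L => e (e.symm x)⁻¹) (e 1))
    (hconj : ∀ h : G, ContDiffAt ℝ ∞ (fun x : L => e (h * e.symm x * h⁻¹)) (e 1)) :
    ∃ c : ChartedSpace L G, @LieGroup ℝ _ L _ L _ _ 𝓘(ℝ, L) ∞ G _ _ c := by
  obtain ⟨s, hs, hm⟩ := hmul
  obtain ⟨s₁, hs₁, s₂, hs₂, hss⟩ := mem_nhds_prod_iff.mp hs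
  have hce : ContinuousAt e 1 := e.continuousAt h1
  have hT : e.source ∩ (e ⁻¹' s₁ ∩ e ⁻¹' s₂) ∈ 𝓝 (1 : G) :=
    inter_mem (e.open_source.mem_nhds h1) (inter_mem (hce hs₁) (hce hs₂))
  obtain ⟨V, hV, hVT⟩ := exists_nhds_split_inv hT
  have hV1 : (1 : G) ∈ V := mem_of_mem_nhds hV
  refine lie_of_local_aux (e.restrOpen (interior V) isOpen_interior)
    ⟨h1, mem_interior_iff_mem_nhds.mpr hV⟩ ?_ (hm.contDiffAt hs) hinv hconj
  intro a
  simp only [OpenPartialHomeomorph.coe_restrOpen, OpenPartialHomeomorph.coe_restrOpen_symm]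
  intro v hv
  have hv1 : v ∈ e.target ∧ e.symm v ∈ interior V := hv.1
  have hv2 : a * e.symm v ∈ interior V := hv.2.2
  have ha := hVT _ (interior_subset hv2) _ (interior_subset hv1.2)
  rw [mul_div_cancel_right] at ha
  have h2 : ContDiffOn ℝ ∞ (fun w : L => (e a, w))
      {v | v ∈ (e.restrOpen (interior V) isOpen_interior).target ∧
        a * e.symm v ∈ (e.restrOpen (interior V) isOpen_interior).source} :=
    (contDiff_const.prodMk contDiff_id).contDiffOn
  have h3 := hm.comp h2 (by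
    intro w hw
    have hw1 : w ∈ e.target ∧ e.symm w ∈ interior V := hw.1
    have hw2 := hVT _ (interior_subset hw1.2) _ hV1
    rw [div_one] at hw2
    refine hss ⟨ha.2.1, ?_⟩
    have := hw2.2.2
    rwa [Set.mem_preimage, e.right_inv hw1.1] at this)
  refine (h3.congr ?_) v hv
  intro w _
  simp only [Function.comp_apply, e.left_inv ha.1]

theorem lie_of_local_euclid {G : Type*} [Group G] [TopologicalSpace G] [IsTopologicalGroup G]
    {L : Type*} [NormedAddCommGroup L] [NormedSpace ℝ L] [FiniteDimensional ℝ L]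
    (e : OpenPartialHomeomorph G L) (h1 : (1 : G) ∈ e.source)
    (hmul : ∃ s ∈ 𝓝 (e 1, e 1),
      ContDiffOn ℝ ∞ (fun p : L × L => e (e.symm p.1 * e.symm p.2)) s)
    (hinv : ContDiffAt ℝ ∞ (fun x : L => e (e.symm x)⁻¹) (e 1))
    (hconj : ∀ h : G, ContDiffAt ℝ ∞ (fun x : L => e (h * e.symm x * h⁻¹)) (e 1)) :
    ∃ (d : ℕ) (c : ChartedSpace (EuclideanSpace ℝ (Fin d)) G),
      @LieGroup ℝ _ (EuclideanSpace ℝ (Fin d)) _ (EuclideanSpace ℝ (Fin d)) _ _
        𝓘(ℝ, EuclideanSpace ℝ (Fin d)) ∞ G _ _ c := by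
  let T : L ≃L[ℝ] EuclideanSpace ℝ (Fin (Module.finrank ℝ L)) := toEuclidean
  have he : ∀ x, e.transHomeomorph T.toHomeomorph x = T (e x) := fun _ => rfl
  have hes : ∀ y, (e.transHomeomorph T.toHomeomorph).symm y = e.symm (T.symm y) := fun _ => rfl
  refine ⟨Module.finrank ℝ L, lie_of_local (e.transHomeomorph T.toHomeomorph) h1 ?_ ?_ ?_⟩
  · obtain ⟨s, hs, hm⟩ := hmul
    simp only [he, hes]
    have hc : ContDiff ℝ ∞ (fun p : EuclideanSpace ℝ (Fin (Module.finrank ℝ L)) ×
        EuclideanSpace ℝ (Fin (Module.finrank ℝ L)) => (T.symm p.1, T.symm p.2)) :=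
      (T.symm.contDiff.comp contDiff_fst).prodMk (T.symm.contDiff.comp contDiff_snd)
    refine ⟨(fun p => (T.symm p.1, T.symm p.2)) ⁻¹' s, ?_, ?_⟩
    · refine hc.continuous.continuousAt ?_
      simpa using hs
    · exact T.contDiff.comp_contDiffOn (hm.comp hc.contDiffOn (fun _ hp => hp))
  · simp only [he, hes]
    refine T.contDiff.contDiffAt.comp _ (ContDiffAt.comp (g := fun x : L => e (e.symm x)⁻¹)
      (T (e 1)) ?_ T.symm.contDiff.contDiffAt)
    simpa using hinv
  · intro h
    simp only [he, hes]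
    refine T.contDiff.contDiffAt.comp _ (ContDiffAt.comp
      (g := fun x : L => e (h * e.symm x * h⁻¹)) (T (e 1)) ?_ T.symm.contDiff.contDiffAt)
    simpa using hconj h

end Crest.Agent.R217.NSS
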