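import Crest.Agent.R217.NSS.Phi

/-! # NSS groups are Lie groups: the logarithmic chart -/

set_option autoImplicit false
open Topology Filter

namespace Crest.Agent.R217.NSS

namespace LD

variable {G E L : Type*} [Group G] [TopologicalSpace G] [IsTopologicalGroup G] [T2Space G]
  [NormedAddCommGroup E] [NormedSpace ℝ E] [CompleteSpace E]
  [NormedAddCommGroup L] [NormedSpace ℝ L] [CompleteSpace L] (D : LD G E L)

theorem exists_surj :
    ∃ η > 0, η ≤ 1 / 100 ∧ ∀ g, D.N g < η → ∃ v : L, ‖v‖ ≤ 2 * D.N g ∧ D.ex v = g := by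
  have := D.finiteDimensional_L
  have : ProperSpace L := FiniteDimensional.proper ℝ L
  obtain ⟨η₁, hη₁, happ⟩ := D.approx (1 / 4) (by norm_num)
  refine ⟨min η₁ (1 / 200), lt_min hη₁ (by norm_num), (min_le_right _ _).trans (by norm_num),
    fun g hg => ?_⟩
  have hg1 : D.N g < η₁ := hg.trans_le (min_le_left _ _)
  have hg2 : D.N g < 1 / 200 := hg.trans_le (min_le_right _ _)
  have hcont : ContinuousOn (fun v : L => D.N ((D.ex v)⁻¹ * g)) (Metric.closedBall 0 (1 / 20)) := by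
    intro v hv
    have hv' : ‖v‖ ≤ 1 := (mem_closedBall_zero_iff.1 hv).trans (by norm_num)
    exact (D.continuous_N.continuousAt.comp (f := fun v : L => (D.ex v)⁻¹ * g)
      ((D.continuousAt_ex v hv').inv.mul continuousAt_const)).continuousWithinAt
  obtain ⟨v, hv, hmin⟩ := (isCompact_closedBall (0 : L) (1 / 20)).exists_isMinOn
    ⟨0, Metric.mem_closedBall_self (by norm_num)⟩ hcont
  have hv' : ‖v‖ ≤ 1 / 20 := mem_closedBall_zero_iff.1 hv
  set k := (D.ex v)⁻¹ * g with hk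
  have h1 : D.N k ≤ D.N g := by
    have := hmin (Metric.mem_closedBall_self (by norm_num) : (0 : L) ∈ _)
    simpa [D.ex_zero] using this
  have h2 : ‖v‖ ≤ 2 * D.N (D.ex v) := by
    simpa [D.ex_zero] using D.lower_lip 0 v (by simp) hv'
  have h3 : D.N (D.ex v) ≤ D.N g + D.N k := by
    have := D.N_mul_le g k⁻¹
    rwa [D.N_inv, hk, mul_inv_rev, inv_inv, mul_inv_cancel_left, ← hk] at this
  obtain ⟨w, hw⟩ := happ k (h1.trans_lt hg1)
  have k0 := D.N_nonneg k
  have h4 : ‖w‖ ≤ 5 / 4 * D.N k := by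
    have := norm_sub_norm_le (D.j w) (D.ι k)
    rw [D.norm_j, D.norm_ι, norm_sub_rev] at this
    linarith
  have h5 : ‖v + w‖ ≤ 1 / 20 := (norm_add_le _ _).trans (by linarith)
  have h6 : D.N k ≤ D.N ((D.ex (v + w))⁻¹ * g) := hmin (mem_closedBall_zero_iff.2 h5)
  have h7 : D.N ((D.ex (v + w))⁻¹ * g) = ‖D.ι k - D.ι ((D.ex v)⁻¹ * D.ex (v + w))‖ := by
    rw [D.norm_ι_sub, hk]
    congr 1
    group
  have h8 := D.ι_ex_inv_mul v w (by linarith) (by linarith)
  have h9 : ‖D.j (D.Phi v w) - D.j w‖ ≤ 2 * ‖v‖ * ‖w‖ := by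
    rw [← map_sub, D.norm_j]
    exact ((D.Phi v - 1).le_opNorm w).trans (mul_le_mul_of_nonneg_right
      (D.norm_Phi_sub_one_le v (by linarith)) (norm_nonneg _))
  have h10 : ‖D.ι k - D.ι ((D.ex v)⁻¹ * D.ex (v + w))‖ ≤
      1 / 4 * D.N k + 2 * ‖v‖ * ‖w‖ + 4 * ‖w‖ ^ 2 := by
    rw [show D.ι k - D.ι ((D.ex v)⁻¹ * D.ex (v + w)) = (D.ι k - D.j w) -
      (D.j (D.Phi v w) - D.j w) - (D.ι ((D.ex v)⁻¹ * D.ex (v + w)) - D.j (D.Phi v w)) by abel]
    exact (norm_sub_le _ _).trans (add_le_add ((norm_sub_le _ _).trans (add_le_add hw h9)) h8)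
  have w0 := norm_nonneg w
  have h11 : 2 * ‖v‖ * ‖w‖ + 4 * ‖w‖ ^ 2 ≤ 1 / 10 * ‖w‖ := by nlinarith
  have h12 : k = 1 := D.eq_one_of_N k (by linarith)
  have h13 : D.ex v = g := inv_mul_eq_one.1 h12
  exact ⟨v, by rwa [h13] at h2, h13⟩

open Classical in
/-- The logarithm. -/
noncomputable def lg (g : G) : L :=
  if h : ∃ v : L, ‖v‖ ≤ 1 / 20 ∧ D.ex v = g then Classical.choose h else 0

theorem lg_ex (v : L) (hv : ‖v‖ ≤ 1 / 20) : D.lg (D.ex v) = v := by
  have h : ∃ w : L, ‖w‖ ≤ 1 / 20 ∧ D.ex w = D.ex v := ⟨v, hv, rfl⟩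
  rw [lg, dif_pos h]
  obtain ⟨h1, h2⟩ := Classical.choose_spec h
  have h3 := D.lower_lip v _ hv h1
  rw [h2, inv_mul_cancel, D.N_one, mul_zero] at h3
  exact sub_eq_zero.1 (norm_le_zero_iff.1 h3)

theorem lg_one : D.lg 1 = 0 := by
  rw [← D.ex_zero]
  exact D.lg_ex 0 (by norm_num)

theorem exists_lg_radius :
    ∃ η > 0, η ≤ 1 / 100 ∧ ∀ g, D.N g < η → D.ex (D.lg g) = g ∧ ‖D.lg g‖ ≤ 2 * D.N g := by
  obtain ⟨η, h0, h1, h⟩ := D.exists_surj
  refine ⟨η, h0, h1, fun g hg => ?_⟩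
  obtain ⟨v, hv, rfl⟩ := h g hg
  rw [D.lg_ex v (by linarith)]
  exact ⟨rfl, hv⟩

theorem exists_chart : ∃ e : OpenPartialHomeomorph G L, (1 : G) ∈ e.source ∧
    (e : G → L) = D.lg ∧ (e.symm : L → G) = D.ex := by
  obtain ⟨η, h0, h1, h⟩ := D.exists_lg_radius
  have hb : ∀ g, D.N g < η → ‖D.lg g‖ < 1 / 20 := fun g hg => by linarith [(h g hg).2]
  have hcx : ContinuousOn D.ex (Metric.ball 0 (1 / 20)) := fun v hv =>
    (D.continuousAt_ex v ((mem_ball_zero_iff.1 hv).le.trans (by norm_num))).continuousWithinAt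
  have hos : IsOpen {g | D.N g < η} := isOpen_lt D.continuous_N continuous_const
  refine ⟨{ toFun := D.lg
            invFun := D.ex
            source := {g | D.N g < η}
            target := Metric.ball 0 (1 / 20) ∩ D.ex ⁻¹' {g | D.N g < η}
            map_source' := fun g hg => ⟨mem_ball_zero_iff.2 (hb g hg), ?_⟩
            map_target' := fun v hv => hv.2
            left_inv' := fun g hg => (h g hg).1
            right_inv' := fun v hv => D.lg_ex v (mem_ball_zero_iff.1 hv.1).le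
            open_source := hos
            open_target := hcx.isOpen_inter_preimage Metric.isOpen_ball hos
            continuousOn_toFun := fun g hg => ?_
            continuousOn_invFun := hcx.mono Set.inter_subset_left }, ?_, rfl, rfl⟩
  · change D.N (D.ex (D.lg g)) < η
    rw [(h g hg).1]; exact hg
  · rw [ContinuousWithinAt, tendsto_iff_norm_sub_tendsto_zero]
    have h2 : Tendsto (fun g' => 2 * D.N (g⁻¹ * g')) (𝓝 g) (𝓝 0) := by
      have : Continuous fun g' => 2 * D.N (g⁻¹ * g') :=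
        continuous_const.mul (D.continuous_N.comp (continuous_const.mul continuous_id))
      simpa [D.N_one] using this.tendsto g
    refine squeeze_zero' (Eventually.of_forall fun _ => norm_nonneg _) ?_
      (h2.mono_left nhdsWithin_le_nhds)
    filter_upwards [self_mem_nhdsWithin] with g' hg'
    have h3 := D.lower_lip _ _ (hb g hg).le (hb g' hg').le
    rwa [(h g hg).1, (h g' hg').1] at h3
  · change D.N 1 < η
    rw [D.N_one]; exact h0

end LD

end Crest.Agent.R217.NSS
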