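import Crest.Agent.R217.NSS.Rep
import Crest.Agent.R217.NSS.Anal

/-! # NSS groups are Lie groups: one-parameter subgroups -/

set_option autoImplicit false
open Topology Filter

namespace Crest.Agent.R217.NSS

namespace GD

variable {G E : Type*} [Group G] [TopologicalSpace G] [NormedAddCommGroup E] [NormedSpace ℝ E]

/-- `γ` is a one-parameter subgroup with velocity `v`. -/
def IsOPS (D : GD G E) (v : E) (γ : ℝ → G) : Prop :=
  (∀ s t, γ (s + t) = γ s * γ t) ∧ HasDerivAt (fun t => D.ι (γ t)) v 0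

theorem hom_zero {γ : ℝ → G} (h : ∀ s t, γ (s + t) = γ s * γ t) : γ 0 = 1 := by
  have := h 0 0
  rw [add_zero] at this
  exact left_eq_mul.mp this

theorem hom_neg {γ : ℝ → G} (h : ∀ s t, γ (s + t) = γ s * γ t) (t : ℝ) : γ (-t) = (γ t)⁻¹ := by
  have := h (-t) t
  rw [neg_add_cancel, hom_zero h] at this
  exact eq_inv_of_mul_eq_one_left this.symm

theorem hom_nat_mul {γ : ℝ → G} (h : ∀ s t, γ (s + t) = γ s * γ t) (n : ℕ) (t : ℝ) :
    γ (n * t) = γ t ^ n := by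
  induction n with
  | zero => simp [hom_zero h]
  | succ n ih =>
    rw [pow_succ, ← ih, ← h]
    congr 1
    push_cast
    ring

variable {D : GD G E} {v w : E} {γ γ' : ℝ → G}

theorem IsOPS.small (h : D.IsOPS v γ) (t : ℝ) {ε : ℝ} (hε : 0 < ε) :
    ∃ δ > 0, ∀ s, 0 < s → s ≤ δ → ‖D.ι (γ (s * t)) - (s * t) • v‖ ≤ ε * s := by
  have ht : 0 < |t| + 1 := by positivity
  obtain ⟨δ, hδ, H⟩ := Metric.eventually_nhds_iff.1
    ((hasDerivAt_iff_isLittleO.1 h.2).def (div_pos hε ht))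
  refine ⟨δ / (|t| + 1), div_pos hδ ht, fun s hs hsδ => ?_⟩
  have h1 : s * (|t| + 1) ≤ δ := (le_div_iff₀ ht).1 hsδ
  have h2 := H (y := s * t) (by
    rw [dist_zero_right, Real.norm_eq_abs, abs_mul, abs_of_pos hs]; linarith)
  rw [hom_zero h.1, D.ι_one, sub_zero, sub_zero, Real.norm_eq_abs, abs_mul, abs_of_pos hs] at h2
  refine h2.trans ?_
  rw [div_mul_eq_mul_div, div_le_iff₀ ht]
  nlinarith [mul_pos hε hs]

theorem IsOPS.N_le (h : D.IsOPS v γ) (t : ℝ) : D.N (γ t) ≤ |t| * ‖v‖ := by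
  have key := tele (fun u => D.N (γ (u * t))) (|t| * ‖v‖) fun ε hε => by
    have ht : 0 < |t| + 1 := by positivity
    obtain ⟨δ, hδ, H⟩ := h.small t hε
    refine ⟨δ, hδ, fun u s _ hs hsδ _ => ?_⟩
    have h1 := H s hs hsδ
    have h2 := D.abs_N_mul_sub_le (γ (s * t)) (γ (u * t))
    rw [← h.1, ← add_mul, add_comm s u] at h2
    have h3 : D.N (γ (s * t)) ≤ ‖D.ι (γ (s * t)) - (s * t) • v‖ + ‖(s * t) • v‖ :=
      norm_le_norm_sub_add _ _
    rw [norm_smul, Real.norm_eq_abs, abs_mul, abs_of_pos hs] at h3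
    rw [Real.norm_eq_abs]
    linarith
  simp only [one_mul, zero_mul, hom_zero h.1, D.N_one, sub_zero] at key
  exact (le_abs_self _).trans key

theorem IsOPS.quad (h : D.IsOPS v γ) (t : ℝ) : ‖D.ι (γ t) - t • v‖ ≤ (|t| * ‖v‖) ^ 2 := by
  have key := tele (fun u => D.ι (γ (u * t)) - (u * t) • v) ((|t| * ‖v‖) ^ 2) fun ε hε => by
    obtain ⟨δ, hδ, H⟩ := h.small t hε
    have ha : 0 ≤ |t| * ‖v‖ := by positivity
    refine ⟨min δ (1 / (|t| * ‖v‖ + 1)), by positivity, fun u s hu hs hsδ hus => ?_⟩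
    have h1 := H s hs (hsδ.trans (min_le_left _ _))
    have h2 := h.N_le (s * t)
    have h3 := h.N_le (u * t)
    rw [abs_mul, abs_of_pos hs, mul_assoc] at h2
    rw [abs_mul, abs_of_nonneg hu, mul_assoc] at h3
    have h4 : s * (|t| * ‖v‖ + 1) ≤ 1 :=
      (le_div_iff₀ (by positivity)).1 (hsδ.trans (min_le_right _ _))
    have h5 := D.ι_mul_sub (γ (u * t)) (γ (s * t)) (by nlinarith)
    rw [← h.1, ← add_mul] at h5
    have h6 : D.N (γ (u * t)) * D.N (γ (s * t)) ≤ (|t| * ‖v‖) * (s * (|t| * ‖v‖)) :=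
      mul_le_mul (h3.trans (mul_le_of_le_one_left ha (by linarith))) h2 (D.N_nonneg _) ha
    have e : D.ι (γ ((u + s) * t)) - ((u + s) * t) • v - (D.ι (γ (u * t)) - (u * t) • v) =
        (D.ι (γ ((u + s) * t)) - D.ι (γ (u * t)) - D.ι (γ (s * t))) +
          (D.ι (γ (s * t)) - (s * t) • v) := by
      rw [add_mul u s t, add_smul]; abel
    rw [e]
    refine (norm_add_le _ _).trans ?_
    nlinarith
  simpa only [one_mul, zero_mul, hom_zero h.1, D.ι_one, sub_zero, zero_smul] using key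

theorem IsOPS.smul (h : D.IsOPS v γ) (c : ℝ) : D.IsOPS (c • v) (fun t => γ (c * t)) := by
  refine ⟨fun s t => by simp only [mul_add, h.1], ?_⟩
  have h1 : HasDerivAt (fun t : ℝ => c * t) c 0 := by simpa using (hasDerivAt_id (0 : ℝ)).const_mul c
  have h2 : HasDerivAt (fun t => D.ι (γ t)) v (c * 0) := by rw [mul_zero]; exact h.2
  exact h2.scomp (0 : ℝ) h1

theorem isOPS_zero (D : GD G E) : D.IsOPS 0 (fun _ => 1) := by
  exact ⟨fun _ _ => (mul_one _).symm, hasDerivAt_const _ _⟩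

theorem IsOPS.dist_le (hv : D.IsOPS v γ) (hw : D.IsOPS w γ') (h1 : ‖v‖ ≤ 1) :
    D.N ((γ 1)⁻¹ * γ' 1) ≤ 2 * ‖w - v‖ := by
  have key := tele2 (fun t => D.N ((γ t)⁻¹ * γ' t)) (2 * ‖w - v‖) (2 * (‖v‖ ^ 2 + ‖w‖ ^ 2)) 1
    one_pos fun t s ht hs _ hts => by
    have e : (γ (t + s))⁻¹ * γ' (t + s) =
        ((γ t)⁻¹ * ((γ s)⁻¹ * γ' s) * (γ t)⁻¹⁻¹) * ((γ t)⁻¹ * γ' t) := by
      rw [add_comm t s, hv.1, hw.1]; group
    have h2 : D.N (γ t)⁻¹ ≤ 1 := by
      rw [D.N_inv]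
      refine (hv.N_le t).trans (mul_le_one₀ ?_ (norm_nonneg _) h1)
      rw [abs_of_nonneg ht]; linarith
    have h3 := D.N_conj_le_two (γ t)⁻¹ ((γ s)⁻¹ * γ' s) h2
    have h4 := hv.quad s
    have h5 := hw.quad s
    rw [abs_of_pos hs] at h4 h5
    have h6 : D.N ((γ s)⁻¹ * γ' s) ≤ s * ‖w - v‖ + (s * ‖w‖) ^ 2 + (s * ‖v‖) ^ 2 := by
      rw [← D.norm_ι_sub]
      have e2 : D.ι (γ' s) - D.ι (γ s) =
          s • (w - v) + (D.ι (γ' s) - s • w) - (D.ι (γ s) - s • v) := by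
        rw [smul_sub]; abel
      rw [e2]
      refine (norm_sub_le _ _).trans (add_le_add ((norm_add_le _ _).trans (add_le_add ?_ h5)) h4)
      rw [norm_smul, Real.norm_of_nonneg hs.le]
    rw [e, Real.norm_eq_abs]
    refine (D.abs_N_mul_sub_le _ _).trans ?_
    nlinarith
  simp only [hom_zero hv.1, hom_zero hw.1, inv_one, mul_one, D.N_one, sub_zero] at key
  exact (le_abs_self _).trans key

theorem IsOPS.unique [T2Space G] (hv : D.IsOPS v γ) (hv' : D.IsOPS v γ') : γ = γ' := by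
  have key : ∀ t, |t| * ‖v‖ ≤ 1 → γ t = γ' t := fun t ht => by
    have := (hv.smul t).dist_le (hv'.smul t) (by rwa [norm_smul])
    simp only [mul_one, sub_self, norm_zero, mul_zero] at this
    exact D.eq_of_N _ _ this
  funext t
  obtain ⟨n, hn⟩ := exists_nat_gt (|t| * ‖v‖)
  have hn0 : (0 : ℝ) < n := lt_of_le_of_lt (by positivity) hn
  have e : t = n * (t / n) := by field_simp
  rw [e, hom_nat_mul hv.1, hom_nat_mul hv'.1, key]
  rw [abs_div, abs_of_pos hn0, div_mul_eq_mul_div, div_le_one hn0]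
  exact hn.le

theorem exists_ops_of_lip [CompleteSpace E] (D : GD G E) (γ : ℝ → G)
    (hγ : ∀ s t, γ (s + t) = γ s * γ t) (c : ℝ) (hc : ∀ t, D.N (γ t) ≤ c * |t|) :
    ∃ v, D.IsOPS v γ ∧ ‖v‖ ≤ c := by
  have hc0 : 0 ≤ c := by simpa using (D.N_nonneg _).trans (hc 1)
  obtain ⟨v, hv⟩ := exists_hasDerivAt_of_almost_add (fun t => D.ι (γ t)) (c + c ^ 2) (1 / (c + 1))
    (by positivity) (fun t _ => (hc t).trans (by nlinarith [abs_nonneg t, sq_nonneg c]))
    fun s t _ ht => by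
      have h1 : |t| * (c + 1) ≤ 1 := (le_div_iff₀ (by positivity)).1 ht
      have h2 := D.ι_mul_sub (γ s) (γ t) ((hc t).trans (by nlinarith [abs_nonneg t]))
      rw [← hγ] at h2
      refine h2.trans ((mul_le_mul (hc s) (hc t) (D.N_nonneg _) (by positivity)).trans ?_)
      have : 0 ≤ c * |s| * |t| := by positivity
      nlinarith
  have h : D.IsOPS v γ := ⟨hγ, hv⟩
  refine ⟨v, h, norm_le_of_smul_le v c (‖v‖ ^ 2) 1 one_pos fun t ht _ => ?_⟩
  have h1 := h.quad t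
  have h2 := hc t
  rw [abs_of_pos ht] at h1 h2
  have h3 : ‖t • v‖ ≤ ‖D.ι (γ t) - t • v‖ + D.N (γ t) := by
    rw [norm_sub_rev]; exact norm_le_norm_sub_add _ _
  nlinarith

end GD

end Crest.Agent.R217.NSS
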