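import Crest.Agent.R217.NSS.Ad

/-! # NSS groups are Lie groups: the derivative of the exponential map -/

set_option autoImplicit false
open Topology Filter

namespace Crest.Agent.R217.NSS

namespace LD

variable {G E L : Type*} [Group G] [TopologicalSpace G] [IsTopologicalGroup G] [T2Space G]
  [NormedAddCommGroup E] [NormedSpace ℝ E] [CompleteSpace E]
  [NormedAddCommGroup L] [NormedSpace ℝ L] [CompleteSpace L] (D : LD G E L)

/-- The left-trivialised derivative of `ex`. -/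
noncomputable def Phi (z : L) : L →L[ℝ] L := ∫ t in (0 : ℝ)..1, D.Ad (D.ex (t • (-z)))

theorem phi_cont (z : L) : Continuous fun t : ℝ => D.Ad (D.ex (t • (-z))) :=
  D.continuous_Ad.comp (D.continuous_ex_smul _)

theorem phi_int (z : L) (hz : ‖z‖ ≤ 1) {t s : ℝ} (ht : 0 ≤ t) (hs : 0 < s) (hts : t + s ≤ 1) :
    ‖(∫ u in t..t + s, D.Ad (D.ex (u • (-z)))) - s • D.Ad (D.ex (t • (-z)))‖ ≤ 4 * s ^ 2 := by
  have h1 : (∫ u in t..t + s, D.Ad (D.ex (u • (-z)))) - s • D.Ad (D.ex (t • (-z))) =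
      ∫ u in t..t + s, (D.Ad (D.ex (u • (-z))) - D.Ad (D.ex (t • (-z)))) := by
    rw [intervalIntegral.integral_sub ((D.phi_cont z).intervalIntegrable _ _)
      intervalIntegrable_const]
    simp
  rw [h1]
  refine (intervalIntegral.norm_integral_le_of_norm_le_const (C := 4 * s) fun u hu => ?_).trans
    (le_of_eq (by rw [add_sub_cancel_left, abs_of_pos hs]; ring))
  rw [Set.uIoc_of_le (by linarith)] at hu
  have h0 : ∀ r : ℝ, 0 ≤ r → D.N (D.ex (r • (-z))) ≤ r := fun r hr => by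
    refine (D.N_ex_le _).trans ?_
    rw [norm_smul, norm_neg, Real.norm_of_nonneg hr]
    exact mul_le_of_le_one_right hr hz
  have h2 : D.N ((D.ex (t • (-z)))⁻¹ * D.ex (u • (-z))) ≤ s := by
    rw [show u = t + (u - t) by ring, D.ex_add_smul, inv_mul_cancel_left]
    exact (h0 _ (by linarith [hu.1])).trans (by linarith [hu.2])
  refine (D.norm_Ad_sub_Ad_le _ _ (by linarith)).trans ?_
  have h3 := D.norm_Ad_le _ ((h0 t ht).trans (by linarith))
  refine (mul_le_mul h3 (mul_le_mul_of_nonneg_left h2 zero_le_two)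
    (mul_nonneg zero_le_two (D.N_nonneg _)) zero_le_two).trans_eq (by ring)

theorem norm_Phi_sub_one_le (z : L) (hz : ‖z‖ ≤ 1) : ‖D.Phi z - 1‖ ≤ 2 * ‖z‖ := by
  have h1 : D.Phi z - 1 = ∫ t in (0 : ℝ)..1, (D.Ad (D.ex (t • (-z))) - 1) := by
    rw [intervalIntegral.integral_sub ((D.phi_cont z).intervalIntegrable _ _)
      intervalIntegrable_const, Phi]
    simp
  rw [h1]
  refine (intervalIntegral.norm_integral_le_of_norm_le_const (C := 2 * ‖z‖) fun t ht => ?_).trans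
    (by simp)
  rw [Set.uIoc_of_le zero_le_one] at ht
  have h2 : D.N (D.ex (t • (-z))) ≤ ‖z‖ := by
    refine (D.N_ex_le _).trans ?_
    rw [norm_smul, norm_neg, Real.norm_of_nonneg ht.1.le]
    exact mul_le_of_le_one_left (norm_nonneg _) ht.2
  exact (D.norm_Ad_sub_one_le _ (h2.trans hz)).trans (by linarith)

theorem ι_ex_inv_mul (z h : L) (hz : ‖z‖ ≤ 1) (hh : ‖h‖ ≤ 1 / 2) :
    ‖D.ι ((D.ex z)⁻¹ * D.ex (z + h)) - D.j (D.Phi z h)‖ ≤ 4 * ‖h‖ ^ 2 := by
  set A : ℝ → L →L[ℝ] L := fun u => D.Ad (D.ex (u • (-z))) with hA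
  set P : ℝ → G := fun t => (D.ex (t • z))⁻¹ * D.ex (t • (z + h)) with hP
  have key := tele2 (fun t => D.ι (P t) - D.j ((∫ u in (0 : ℝ)..t, A u) h)) (4 * ‖h‖ ^ 2) 24
    (1 / 2) (by norm_num) ?_
  · simpa [hP, hA, D.ex_zero, D.ι_one, Phi] using key
  intro t s ht hs hs2 hts
  have hh0 := norm_nonneg h
  have hz0 := norm_nonneg z
  set b := D.ex (t • (-z)) with hb
  have hb1 : D.N b ≤ 1 := by
    refine (D.N_ex_le _).trans ?_
    rw [norm_smul, norm_neg, Real.norm_of_nonneg ht]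
    nlinarith
  have e1 : P (t + s) = b * P s * b⁻¹ * P t := by
    simp only [hP, hb, add_comm t s, D.ex_add_smul, smul_neg, D.ex_neg]
    group
  have h1 : D.N (P t) ≤ 2 * ‖h‖ := by
    refine (D.dist_ex_le _ _ ?_).trans ?_
    · rw [norm_smul, Real.norm_of_nonneg ht]
      nlinarith
    · rw [← smul_sub, add_sub_cancel_left, norm_smul, Real.norm_of_nonneg ht]
      nlinarith
  have h2 : ‖D.ι (P s) - D.j (s • h)‖ ≤ 5 * s ^ 2 := by
    have h3 : ‖s • (z + h)‖ ≤ s * (3 / 2) := by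
      rw [norm_smul, Real.norm_of_nonneg hs.le]
      exact mul_le_mul_of_nonneg_left ((norm_add_le _ _).trans (by linarith)) hs.le
    have h4 : ‖-(s • z)‖ ≤ s := by
      rw [norm_neg, norm_smul, Real.norm_of_nonneg hs.le]
      exact mul_le_of_le_one_right hs.le hz
    have h5 := D.ι_ex_mul (-(s • z)) (s • (z + h)) (by linarith)
    rw [D.ex_neg, smul_add, neg_add_cancel_left, ← smul_add] at h5
    refine h5.trans ?_
    have h6 := norm_nonneg (s • (z + h))
    have h7 := norm_nonneg (-(s • z))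
    nlinarith [mul_le_mul h4 h3 h6 hs.le, mul_le_mul h4 h4 h7 hs.le,
      mul_le_mul h3 h3 h6 (by positivity)]
  have hsh : ‖s • h‖ = s * ‖h‖ := by rw [norm_smul, Real.norm_of_nonneg hs.le]
  have h3 : D.N (P s) ≤ s * ‖h‖ + 5 * s ^ 2 := by
    have := norm_le_norm_add_norm_sub' (D.ι (P s)) (D.j (s • h))
    rw [D.norm_j, hsh, D.norm_ι] at this
    linarith
  have h4 := D.ι_mul_sub (b * P s * b⁻¹) (P t) (by linarith)
  have h5 := D.ι_conj_approx b (P s) hb1 (s • h)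
  have h6 := ((∫ u in t..t + s, A u) - s • A t).le_of_opNorm_le (D.phi_int z hz ht hs hts) h
  have h7 := D.N_conj_le_two b (P s) hb1
  have e2 : D.ι (P (t + s)) - D.j ((∫ u in (0 : ℝ)..t + s, A u) h) -
      (D.ι (P t) - D.j ((∫ u in (0 : ℝ)..t, A u) h)) =
      (D.ι (b * P s * b⁻¹ * P t) - D.ι (b * P s * b⁻¹) - D.ι (P t)) +
        (D.ι (b * P s * b⁻¹) - D.j (D.Ad b (s • h))) -
        D.j (((∫ u in t..t + s, A u) - s • A t) h) := by
    rw [e1, ← intervalIntegral.integral_add_adjacent_intervals (b := t)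
      ((D.phi_cont z).intervalIntegrable _ _) ((D.phi_cont z).intervalIntegrable _ _)]
    simp only [add_apply, sub_apply,
      smul_apply, map_add, map_sub, map_smul, hA, hb]
    abel
  rw [e2]
  refine (norm_sub_le _ _).trans ?_
  rw [D.norm_j]
  have h8 : D.N (b * P s * b⁻¹) * D.N (P t) ≤ 2 * (s * ‖h‖ + 5 * s ^ 2) * (2 * ‖h‖) :=
    mul_le_mul (by linarith) h1 (D.N_nonneg _) (by positivity)
  have h9 : s ^ 2 * ‖h‖ ≤ s ^ 2 * (1 / 2) := mul_le_mul_of_nonneg_left hh (sq_nonneg _)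
  have h10 : (s * ‖h‖) ^ 2 ≤ (s * (1 / 2)) ^ 2 := by gcongr
  rw [hsh] at h5
  nlinarith [norm_add_le (D.ι (b * P s * b⁻¹ * P t) - D.ι (b * P s * b⁻¹) - D.ι (P t))
    (D.ι (b * P s * b⁻¹) - D.j (D.Ad b (s • h)))]

theorem lower_lip (v w : L) (hv : ‖v‖ ≤ 1 / 20) (hw : ‖w‖ ≤ 1 / 20) :
    ‖w - v‖ ≤ 2 * D.N ((D.ex v)⁻¹ * D.ex w) := by
  have h0 : ‖w - v‖ ≤ 1 / 10 := (norm_sub_le _ _).trans (by linarith)
  have h1 := D.ι_ex_inv_mul v (w - v) (by linarith) (by linarith)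
  rw [add_sub_cancel] at h1
  have h2 := (D.Phi v - 1).le_of_opNorm_le (D.norm_Phi_sub_one_le v (by linarith)) (w - v)
  rw [sub_apply, one_apply_eq_self] at h2
  have h3 := norm_le_norm_add_norm_sub (D.Phi v (w - v)) (w - v)
  have h4 := norm_le_norm_add_norm_sub (D.ι ((D.ex v)⁻¹ * D.ex w)) (D.j (D.Phi v (w - v)))
  rw [D.norm_j, D.norm_ι] at h4
  have h5 := norm_nonneg (w - v)
  nlinarith [mul_le_mul_of_nonneg_right hv h5, mul_le_mul_of_nonneg_right h0 h5]

include D in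
theorem finiteDimensional_L : FiniteDimensional ℝ L := by
  by_contra hL
  obtain ⟨R, f, hR, h1, h2⟩ := exists_seq_norm_le_one_le_norm_sub hL
  have hc : 0 < 1 / (20 * R) := by positivity
  have h3 : ∀ n, ‖(1 / (20 * R)) • f n‖ ≤ 1 / 20 := fun n => by
    rw [norm_smul, Real.norm_of_nonneg hc.le]
    refine (mul_le_mul_of_nonneg_left (h1 n) hc.le).trans_eq ?_
    field_simp
  obtain ⟨x, -, φ, hφ, hx⟩ := (D.cpt.image D.continuous_ι).tendsto_subseq
    (x := fun n => D.ι (D.ex ((1 / (20 * R)) • f n)))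
    fun n => ⟨_, (D.N_ex_le _).trans ((h3 n).trans (by norm_num)), rfl⟩
  obtain ⟨n, hn⟩ := Metric.cauchySeq_iff'.1 hx.cauchySeq (1 / (20 * R) / 2) (by positivity)
  have h4 := hn (n + 1) n.le_succ
  have h5 := D.lower_lip _ _ (h3 (φ n)) (h3 (φ (n + 1)))
  rw [← smul_sub, norm_smul, Real.norm_of_nonneg hc.le] at h5
  simp only [Function.comp_apply, dist_eq_norm, D.norm_ι_sub] at h4
  have h6 := h2 (hφ.injective.ne n.succ_ne_self)
  nlinarith [mul_le_mul_of_nonneg_left h6 hc.le]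

end LD

end Crest.Agent.R217.NSS
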