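import Mathlib

/-!
# NSS groups are Lie groups, part 0: isometric representations with a marked vector

`R.ι g = τ g φ - φ` is the cocycle, `R.N g = ‖R.ι g‖` the associated left-invariant norm.
`GD` ("Gleason data") is the interface between the construction (files `Esc` .. `Gleason`)
and the Lie theory (files `OPS` .. `Smooth`).
-/

set_option autoImplicit false
open Topology Filter

namespace Crest.Agent.R217.NSS

/-- An isometric linear representation together with a marked vector. -/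
structure Rep (G E : Type*) [Group G] [NormedAddCommGroup E] [NormedSpace ℝ E] where
  τ : G →* (E ≃ₗᵢ[ℝ] E)
  φ : E

namespace Rep

variable {G E : Type*} [Group G] [NormedAddCommGroup E] [NormedSpace ℝ E] (R : Rep G E)

/-- The cocycle `g ↦ τ g φ - φ`. -/
noncomputable def ι (g : G) : E := R.τ g R.φ - R.φ

/-- The norm `‖τ g φ - φ‖`. -/
noncomputable def N (g : G) : ℝ := ‖R.ι g‖

theorem norm_ι (g : G) : ‖R.ι g‖ = R.N g := rfl

theorem τ_mul_apply (g h : G) (v : E) : R.τ (g * h) v = R.τ g (R.τ h v) := by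
  rw [map_mul]; rfl

theorem τ_one_apply (v : E) : R.τ 1 v = v := by
  rw [map_one]; rfl

theorem ι_mul (g h : G) : R.ι (g * h) = R.ι g + R.τ g (R.ι h) := by
  simp only [ι, τ_mul_apply, map_sub]; abel

theorem ι_one : R.ι 1 = 0 := by
  simp only [ι, τ_one_apply, sub_self]

theorem ι_inv (g : G) : R.ι g⁻¹ = - R.τ g⁻¹ (R.ι g) := by
  have h := R.ι_mul g⁻¹ g
  rw [inv_mul_cancel, ι_one] at h
  exact eq_neg_of_add_eq_zero_left h.symm

theorem N_nonneg (g : G) : 0 ≤ R.N g := norm_nonneg _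

theorem N_one : R.N 1 = 0 := by simp only [N, ι_one, norm_zero]

theorem N_mul_le (g h : G) : R.N (g * h) ≤ R.N g + R.N h := by
  unfold N
  rw [ι_mul]
  exact (norm_add_le _ _).trans (by rw [LinearIsometryEquiv.norm_map])

theorem N_inv (g : G) : R.N g⁻¹ = R.N g := by
  unfold N
  rw [ι_inv, norm_neg, LinearIsometryEquiv.norm_map]

theorem N_pow_le (g : G) (n : ℕ) : R.N (g ^ n) ≤ n * R.N g := by
  induction n with
  | zero => simp [N_one]
  | succ n ih =>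
    rw [pow_succ]
    have := R.N_mul_le (g ^ n) g
    push_cast
    linarith

theorem N_zpow_le (g : G) (m : ℤ) : R.N (g ^ m) ≤ |(m : ℝ)| * R.N g := by
  obtain ⟨n, rfl | rfl⟩ := Int.eq_nat_or_neg m
  · rw [zpow_natCast]
    simpa using R.N_pow_le g n
  · rw [zpow_neg, zpow_natCast, N_inv]
    simpa using R.N_pow_le g n

theorem norm_ι_sub (g h : G) : ‖R.ι g - R.ι h‖ = R.N (h⁻¹ * g) := by
  have h1 := R.ι_mul h (h⁻¹ * g)
  rw [mul_inv_cancel_left] at h1
  rw [h1, add_sub_cancel_left, LinearIsometryEquiv.norm_map, norm_ι]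

theorem abs_N_mul_sub_le (c p : G) : |R.N (c * p) - R.N p| ≤ R.N c := by
  have h1 := R.N_mul_le c p
  have h2 := R.N_mul_le c⁻¹ (c * p)
  rw [inv_mul_cancel_left, N_inv] at h2
  rw [abs_le]
  constructor <;> linarith

theorem abs_N_sub_le (g h : G) : |R.N g - R.N h| ≤ R.N (h⁻¹ * g) := by
  rw [← norm_ι_sub]
  exact abs_norm_sub_norm_le _ _

theorem N_le_two_norm (g : G) : R.N g ≤ 2 * ‖R.φ‖ := by
  unfold N ι
  refine (norm_sub_le _ _).trans ?_
  rw [LinearIsometryEquiv.norm_map]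
  linarith

theorem pow_approx (g : G) (n : ℕ) (b : ℝ)
    (hb : ∀ i < n, ‖R.τ (g ^ i) (R.ι g) - R.ι g‖ ≤ b) :
    ‖R.ι (g ^ n) - (n : ℝ) • R.ι g‖ ≤ n * b := by
  induction n with
  | zero => simp [ι_one]
  | succ n ih =>
    have h1 := ih (fun i hi => hb i (Nat.lt_succ_of_lt hi))
    have h2 := hb n (Nat.lt_succ_self n)
    have h3 : R.ι (g ^ (n + 1)) - ((n + 1 : ℕ) : ℝ) • R.ι g
        = (R.ι (g ^ n) - (n : ℝ) • R.ι g) + (R.τ (g ^ n) (R.ι g) - R.ι g) := by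
      rw [pow_succ, ι_mul]
      push_cast
      rw [add_smul, one_smul]
      abel
    rw [h3]
    refine (norm_add_le _ _).trans ?_
    push_cast
    linarith

theorem ι_conj (h g : G) :
    R.ι (h * g * h⁻¹) = R.τ h (R.ι g + (R.τ g (R.ι h⁻¹) - R.ι h⁻¹)) := by
  have h1 : R.ι h = - R.τ h (R.ι h⁻¹) := by
    have := R.ι_inv h⁻¹
    rwa [inv_inv] at this
  rw [mul_assoc, ι_mul, ι_mul, h1]
  simp only [map_add, map_sub]
  abel

end Rep

/-- Gleason data: a representation whose cocycle is a `C^{1,1}` embedding near `1`. -/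
structure GD (G E : Type*) [Group G] [TopologicalSpace G] [NormedAddCommGroup E]
    [NormedSpace ℝ E] extends Rep G E where
  comm : ∀ g h : G, toRep.N h ≤ 1 →
    ‖toRep.τ g (toRep.ι h) - toRep.ι h‖ ≤ toRep.N g * toRep.N h
  tends : Tendsto toRep.N (𝓝 1) (𝓝 0)
  basis : ∀ V ∈ 𝓝 (1 : G), ∃ ε > 0, ∀ g, toRep.N g < ε → g ∈ V
  cpt : IsCompact {g | toRep.N g ≤ 1}
  conj : ∀ y : G, ∃ C : ℝ, 0 ≤ C ∧ ∀ g, toRep.N (y * g * y⁻¹) ≤ C * toRep.N g

namespace GD

variable {G E : Type*} [Group G] [TopologicalSpace G] [NormedAddCommGroup E] [NormedSpace ℝ E]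
  (D : GD G E)

theorem ι_mul_sub (g h : G) (hh : D.N h ≤ 1) :
    ‖D.ι (g * h) - D.ι g - D.ι h‖ ≤ D.N g * D.N h := by
  have := D.comm g h hh
  rw [D.ι_mul]
  convert this using 2
  abel

theorem N_conj_le (h g : G) (hh : D.N h ≤ 1) : D.N (h * g * h⁻¹) ≤ (1 + D.N h) * D.N g := by
  have h1 := D.comm g h⁻¹ (by rw [D.N_inv]; exact hh)
  rw [D.N_inv] at h1
  rw [← D.norm_ι, D.ι_conj, LinearIsometryEquiv.norm_map]
  refine (norm_add_le _ _).trans ?_
  rw [D.norm_ι]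
  linarith

theorem N_conj_le_two (h g : G) (hh : D.N h ≤ 1) : D.N (h * g * h⁻¹) ≤ 2 * D.N g := by
  have h1 := D.N_conj_le h g hh
  have h2 := D.N_nonneg g
  nlinarith

theorem ι_conj_sub (h g : G) (hh : D.N h ≤ 1) (hg : D.N g ≤ 1) :
    ‖D.ι (h * g * h⁻¹) - D.ι g‖ ≤ 2 * D.N g * D.N h := by
  have h1 := D.comm g h⁻¹ (by rw [D.N_inv]; exact hh)
  rw [D.N_inv] at h1
  have h2 := D.comm h g hg
  have h3 : D.ι (h * g * h⁻¹) - D.ι g
      = (D.τ h (D.ι g) - D.ι g) + D.τ h (D.τ g (D.ι h⁻¹) - D.ι h⁻¹) := by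
    rw [D.ι_conj, map_add]
    abel
  rw [h3]
  refine (norm_add_le _ _).trans ?_
  rw [LinearIsometryEquiv.norm_map]
  linarith

theorem ι_inv_add (g : G) (hg : D.N g ≤ 1) : ‖D.ι g⁻¹ + D.ι g‖ ≤ D.N g ^ 2 := by
  have h1 := D.ι_mul_sub g⁻¹ g hg
  rw [inv_mul_cancel, D.ι_one, D.N_inv] at h1
  have h2 : D.ι g⁻¹ + D.ι g = -(0 - D.ι g⁻¹ - D.ι g) := by abel
  rw [h2, norm_neg, sq]
  exact h1

theorem pow_est (g : G) (hg : D.N g ≤ 1) (n : ℕ) (ρ : ℝ) (hρ : ∀ i < n, D.N (g ^ i) ≤ ρ) :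
    ‖D.ι (g ^ n) - (n : ℝ) • D.ι g‖ ≤ n * (ρ * D.N g) := by
  refine D.pow_approx g n _ (fun i hi => (D.comm _ g hg).trans ?_)
  exact mul_le_mul_of_nonneg_right (hρ i hi) (D.N_nonneg g)

theorem pow_est' (g : G) (hg : D.N g ≤ 1) (n : ℕ) :
    ‖D.ι (g ^ n) - (n : ℝ) • D.ι g‖ ≤ (n * D.N g) ^ 2 := by
  have h := D.pow_est g hg n (n * D.N g) (fun i hi => (D.N_pow_le g i).trans
    (mul_le_mul_of_nonneg_right (by exact_mod_cast hi.le) (D.N_nonneg g)))
  calc _ ≤ _ := h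
    _ = _ := by ring

theorem zpow_est (g : G) (hg : D.N g ≤ 1) (m : ℤ) :
    ‖D.ι (g ^ m) - (m : ℝ) • D.ι g‖ ≤ 2 * (|(m : ℝ)| * D.N g) ^ 2 := by
  obtain ⟨n, rfl | rfl⟩ := Int.eq_nat_or_neg m
  · rw [zpow_natCast]
    have h := D.pow_est' g hg n
    have h2 : 0 ≤ ((n : ℝ) * D.N g) ^ 2 := sq_nonneg _
    simp only [Int.cast_natCast, Nat.abs_cast]
    linarith
  · rw [zpow_neg, zpow_natCast, ← inv_pow]
    have h := D.pow_est' g⁻¹ (by rw [D.N_inv]; exact hg) n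
    rw [D.N_inv] at h
    have h2 := D.ι_inv_add g hg
    have h3 : D.ι (g⁻¹ ^ n) - ((-(n : ℤ) : ℤ) : ℝ) • D.ι g
        = (D.ι (g⁻¹ ^ n) - (n : ℝ) • D.ι g⁻¹) + (n : ℝ) • (D.ι g⁻¹ + D.ι g) := by
      push_cast
      rw [smul_add, neg_smul]
      abel
    rw [h3]
    refine (norm_add_le _ _).trans ?_
    rw [norm_smul]
    simp only [Int.cast_neg, Int.cast_natCast, abs_neg, Nat.abs_cast, Real.norm_natCast]
    have h4 : (n : ℝ) * ‖D.ι g⁻¹ + D.ι g‖ ≤ n * D.N g ^ 2 :=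
      mul_le_mul_of_nonneg_left h2 (Nat.cast_nonneg n)
    have h5 : (n : ℝ) * D.N g ^ 2 ≤ (n * D.N g) ^ 2 := by
      rw [mul_pow]
      refine mul_le_mul_of_nonneg_right ?_ (sq_nonneg _)
      have : n ≤ n ^ 2 := Nat.le_self_pow two_ne_zero n
      exact_mod_cast this
    linarith

theorem tendsto_one_of_N {α : Type*} {l : Filter α} (g : α → G)
    (h : Tendsto (fun k => D.N (g k)) l (𝓝 0)) : Tendsto g l (𝓝 1) := by
  intro V hV
  obtain ⟨ε, hε, hV⟩ := D.basis V hV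
  rw [mem_map]
  filter_upwards [h.eventually (gt_mem_nhds hε)] with k hk
  exact hV _ hk

theorem eq_one_of_N [T2Space G] (g : G) (h : D.N g ≤ 0) : g = 1 := by
  have h0 : D.N g = 0 := le_antisymm h (D.N_nonneg g)
  have h1 : Tendsto (fun _ : ℕ => g) atTop (𝓝 1) :=
    D.tendsto_one_of_N _ (by simp only [h0]; exact tendsto_const_nhds)
  exact tendsto_nhds_unique tendsto_const_nhds h1

theorem eq_of_N [T2Space G] (g h : G) (hh : D.N (g⁻¹ * h) ≤ 0) : g = h :=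
  inv_mul_eq_one.mp (D.eq_one_of_N _ hh)

theorem continuous_ι [IsTopologicalGroup G] : Continuous D.ι := by
  refine continuous_iff_continuousAt.mpr fun h => ?_
  rw [ContinuousAt, tendsto_iff_norm_sub_tendsto_zero]
  simp only [D.norm_ι_sub]
  refine D.tends.comp ?_
  have : ContinuousAt (fun g => h⁻¹ * g) h := by fun_prop
  rwa [ContinuousAt, inv_mul_cancel] at this

theorem continuous_N [IsTopologicalGroup G] : Continuous D.N :=
  D.continuous_ι.norm

theorem tendsto_of_N [IsTopologicalGroup G] {α : Type*} {l : Filter α} (g : α → G) (x : G)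
    (h : Tendsto (fun k => D.N (x⁻¹ * g k)) l (𝓝 0)) : Tendsto g l (𝓝 x) := by
  have h1 := (D.tendsto_one_of_N _ h).const_mul x
  simpa using h1

end GD

end Crest.Agent.R217.NSS
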