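import Crest.Agent.R217.NSS.Log
import Crest.Agent.R217.NSS.AdExp

/-! # NSS groups are Lie groups: the multiplication is smooth in the logarithmic chart -/

set_option autoImplicit false
open Topology Filter
open scoped ContDiff

namespace Crest.Agent.R217.NSS

namespace LD

variable {G E L : Type*} [Group G] [TopologicalSpace G] [IsTopologicalGroup G] [T2Space G]
  [NormedAddCommGroup E] [NormedSpace ℝ E] [CompleteSpace E]
  [NormedAddCommGroup L] [NormedSpace ℝ L] [CompleteSpace L] (D : LD G E L)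

/-- The derivative of the local multiplication at `(x, y)`, in terms of its value `z`. -/
noncomputable def Dm (q : (L × L) × L) : L × L →L[ℝ] L :=
  (Ring.inverse (D.Phi q.2)).comp
    (((D.Ad (D.ex (-q.1.2))).comp (D.Phi q.1.1)).comp (ContinuousLinearMap.fst ℝ L L)
      + (D.Phi q.1.2).comp (ContinuousLinearMap.snd ℝ L L))

theorem contDiffOn_Dm : ContDiffOn ℝ ∞ D.Dm {q | ‖q.2‖ < 1 / 2} := by
  intro q hq
  refine ContDiffAt.contDiffWithinAt ?_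
  obtain ⟨u, hu⟩ := D.isUnit_Phi q.2 hq
  have h1 : ContDiffAt ℝ ∞ (fun q : (L × L) × L => Ring.inverse (D.Phi q.2)) q := by
    have h2 : ContDiffAt ℝ ∞ Ring.inverse (D.Phi q.2) := hu ▸ contDiffAt_ringInverse ℝ u
    exact h2.comp q ((D.contDiff_Phi.comp contDiff_snd).contDiffAt)
  have h3 : ContDiff ℝ ∞ (fun q : (L × L) × L => D.Ad (D.ex (-q.1.2))) :=
    D.contDiff_Ad_ex.comp (contDiff_snd.comp contDiff_fst).neg
  have h4 : ContDiff ℝ ∞ (fun q : (L × L) × L => D.Phi q.1.1) :=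
    D.contDiff_Phi.comp (contDiff_fst.comp contDiff_fst)
  have h5 : ContDiff ℝ ∞ (fun q : (L × L) × L => D.Phi q.1.2) :=
    D.contDiff_Phi.comp (contDiff_snd.comp contDiff_fst)
  exact h1.clm_comp (((h3.clm_comp h4).clm_comp contDiff_const).add
    (h5.clm_comp contDiff_const)).contDiffAt

/-- Second-order estimate for the local multiplication. -/
theorem mul_est (x y z h k z' : L) (hx : ‖x‖ ≤ 1 / 20) (hy : ‖y‖ ≤ 1 / 20)
    (hz : ‖z‖ ≤ 1 / 20) (hz' : ‖z'‖ ≤ 1 / 20) (hh : ‖h‖ ≤ 1 / 20) (hk : ‖k‖ ≤ 1 / 20)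
    (e1 : D.ex z = D.ex x * D.ex y) (e2 : D.ex z' = D.ex (x + h) * D.ex (y + k)) :
    ‖z' - z - D.Dm ((x, y), z) (h, k)‖ ≤ 1000 * (‖h‖ + ‖k‖) ^ 2 := by
  have ha := norm_nonneg h
  have hb := norm_nonneg k
  set p := (D.ex x)⁻¹ * D.ex (x + h) with hp
  set q := (D.ex y)⁻¹ * D.ex (y + k) with hq
  set g := D.ex (-y) with hg
  have hgN : D.N g ≤ 1 := (D.N_ex_le _).trans (by rw [norm_neg]; linarith)
  have hpN : D.N p ≤ 2 * ‖h‖ := by simpa using D.dist_ex_le x (x + h) (by linarith)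
  have hqN : D.N q ≤ 2 * ‖k‖ := by simpa using D.dist_ex_le y (y + k) (by linarith)
  have hp1 : ‖D.ι p - D.j (D.Phi x h)‖ ≤ 4 * ‖h‖ ^ 2 := D.ι_ex_inv_mul x h (by linarith) (by linarith)
  have hq1 : ‖D.ι q - D.j (D.Phi y k)‖ ≤ 4 * ‖k‖ ^ 2 := D.ι_ex_inv_mul y k (by linarith) (by linarith)
  have hΦ : ‖D.Phi x h‖ ≤ 11 / 10 * ‖h‖ := by
    have h1 : D.Phi x h = (D.Phi x - 1) h + h := by simp
    have h2 := (D.Phi x - 1).le_opNorm h
    have h3 := D.norm_Phi_sub_one_le x (by linarith)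
    rw [h1]
    refine (norm_add_le _ _).trans ?_
    nlinarith
  have hp2 : ‖D.ι (g * p * g⁻¹) - D.j (D.Ad g (D.Phi x h))‖ ≤ 16 * ‖h‖ ^ 2 := by
    refine (D.ι_conj_approx g p hgN _).trans ?_
    have := pow_le_pow_left₀ (norm_nonneg _) hΦ 2
    nlinarith
  have hp3 : D.N (g * p * g⁻¹) ≤ 4 * ‖h‖ := (D.N_conj_le_two g p hgN).trans (by linarith)
  have hpq : ‖D.ι (g * p * g⁻¹ * q) - D.ι (g * p * g⁻¹) - D.ι q‖ ≤ 4 * ‖h‖ * (2 * ‖k‖) :=
    (D.ι_mul_sub _ q (by linarith)).trans (mul_le_mul hp3 hqN (D.N_nonneg _) (by positivity))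
  have hzz : (D.ex z)⁻¹ * D.ex z' = g * p * g⁻¹ * q := by
    rw [e1, e2, hg, D.ex_neg, hp, hq]; group
  have hd : ‖z' - z‖ ≤ 8 * (‖h‖ + ‖k‖) := by
    have h1 := D.lower_lip z z' hz hz'
    rw [hzz] at h1
    have h2 := D.N_mul_le (g * p * g⁻¹) q
    linarith
  have hd2 : ‖D.ι (g * p * g⁻¹ * q) - D.j (D.Phi z (z' - z))‖ ≤ 4 * ‖z' - z‖ ^ 2 := by
    have h1 := D.ι_ex_inv_mul z (z' - z) (by linarith) ((norm_sub_le _ _).trans (by linarith))
    rwa [add_sub_cancel, hzz] at h1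
  have hW : ‖D.Phi z (z' - z) - (D.Ad g (D.Phi x h) + D.Phi y k)‖ ≤ 272 * (‖h‖ + ‖k‖) ^ 2 := by
    rw [← D.norm_j]
    have h1 : D.j (D.Phi z (z' - z) - (D.Ad g (D.Phi x h) + D.Phi y k)) =
        ((D.ι (g * p * g⁻¹ * q) - D.ι (g * p * g⁻¹) - D.ι q) +
          (D.ι (g * p * g⁻¹) - D.j (D.Ad g (D.Phi x h))) + (D.ι q - D.j (D.Phi y k))) -
          (D.ι (g * p * g⁻¹ * q) - D.j (D.Phi z (z' - z))) := by
      rw [map_sub, map_add]; abel
    rw [h1]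
    refine (norm_sub_le _ _).trans ?_
    have h2 := norm_add₃_le (a := D.ι (g * p * g⁻¹ * q) - D.ι (g * p * g⁻¹) - D.ι q)
      (b := D.ι (g * p * g⁻¹) - D.j (D.Ad g (D.Phi x h))) (c := D.ι q - D.j (D.Phi y k))
    have h3 := pow_le_pow_left₀ (norm_nonneg _) hd 2
    nlinarith [mul_nonneg ha hb]
  have hu := D.isUnit_Phi z (by linarith)
  have h1 : z' - z - D.Dm ((x, y), z) (h, k) =
      Ring.inverse (D.Phi z) (D.Phi z (z' - z) - (D.Ad g (D.Phi x h) + D.Phi y k)) := by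
    have h2 : Ring.inverse (D.Phi z) (D.Phi z (z' - z)) = z' - z := by
      rw [← mul_apply_eq_comp, Ring.inverse_mul_cancel _ hu,
        one_apply_eq_self]
    rw [map_sub, h2]
    simp [Dm, hg]
  rw [h1]
  refine ((Ring.inverse (D.Phi z)).le_opNorm _).trans ?_
  have h3 := D.norm_inverse_Phi_le z (by linarith)
  nlinarith [norm_nonneg (D.Phi z (z' - z) - (D.Ad g (D.Phi x h) + D.Phi y k)),
    sq_nonneg (‖h‖ + ‖k‖)]

theorem exists_hasFDerivAt_m : ∃ r > 0, ∀ p : L × L, ‖p‖ < r →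
    ‖D.lg (D.ex p.1 * D.ex p.2)‖ < 1 / 2 ∧
    HasFDerivAt (fun p : L × L => D.lg (D.ex p.1 * D.ex p.2))
      (D.Dm (p, D.lg (D.ex p.1 * D.ex p.2))) p := by
  obtain ⟨η, hη, hη1, hlg⟩ := D.exists_lg_radius
  have key : ∀ p : L × L, ‖p‖ < η / 2 → ‖p.1‖ ≤ 1 / 20 ∧ ‖p.2‖ ≤ 1 / 20 ∧
      D.ex (D.lg (D.ex p.1 * D.ex p.2)) = D.ex p.1 * D.ex p.2 ∧
      ‖D.lg (D.ex p.1 * D.ex p.2)‖ ≤ 1 / 20 := by
    intro p hp
    have h1 := norm_fst_le p
    have h2 := norm_snd_le p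
    have h3 : D.N (D.ex p.1 * D.ex p.2) < η := by
      linarith [D.N_mul_le (D.ex p.1) (D.ex p.2), D.N_ex_le p.1, D.N_ex_le p.2]
    obtain ⟨h4, h5⟩ := hlg _ h3
    exact ⟨by linarith, by linarith, h4, by linarith⟩
  refine ⟨η / 2, by positivity, fun p hp => ?_⟩
  obtain ⟨h1, h2, h3, h4⟩ := key p hp
  refine ⟨by linarith, ?_⟩
  rw [hasFDerivAt_iff_isLittleO_nhds_zero]
  refine Asymptotics.IsBigO.trans_isLittleO (g := fun v : L × L => ‖v‖ ^ 2) ?_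
    (Asymptotics.isLittleO_norm_pow_id (by norm_num))
  refine Asymptotics.IsBigO.of_bound 4000 ?_
  have e1 : ∀ᶠ v : L × L in 𝓝 0, ‖p + v‖ < η / 2 := by
    have hc : Continuous fun v : L × L => ‖p + v‖ := by fun_prop
    exact hc.continuousAt.eventually (gt_mem_nhds (by simpa using hp))
  have e2 : ∀ᶠ v : L × L in 𝓝 0, ‖v‖ < 1 / 20 :=
    continuous_norm.continuousAt.eventually (gt_mem_nhds (by simp))
  filter_upwards [e1, e2] with v hv hv'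
  obtain ⟨-, -, h7, h8⟩ := key _ hv
  have h5 := norm_fst_le v
  have h6 := norm_snd_le v
  have h9 := D.mul_est p.1 p.2 _ v.1 v.2 _ h1 h2 h4 h8 (by linarith) (by linarith) h3 h7
  refine h9.trans ?_
  rw [Real.norm_of_nonneg (sq_nonneg _)]
  have h10 : (‖v.1‖ + ‖v.2‖) ^ 2 ≤ (2 * ‖v‖) ^ 2 :=
    pow_le_pow_left₀ (by positivity) (by linarith) 2
  nlinarith

theorem contDiffOn_m : ∃ s ∈ 𝓝 ((0, 0) : L × L),
    ContDiffOn ℝ ∞ (fun p : L × L => D.lg (D.ex p.1 * D.ex p.2)) s := by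
  obtain ⟨r, hr, h⟩ := D.exists_hasFDerivAt_m
  refine ⟨Metric.ball 0 r, Metric.ball_mem_nhds _ hr, ?_⟩
  refine contDiffOn_of_hasFDerivAt_self _ Metric.isOpen_ball _ D.Dm _ D.contDiffOn_Dm ?_ ?_
  · intro p hp
    exact (h p (mem_ball_zero_iff.mp hp)).1
  · intro p hp
    exact (h p (mem_ball_zero_iff.mp hp)).2

end LD

end Crest.Agent.R217.NSS
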