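import Crest.Agent.R217.NSS.Rep

/-! # NSS groups are Lie groups: ultralimits of powers -/

set_option autoImplicit false
open Topology Filter

namespace Crest.Agent.R217.NSS

namespace GD

variable {G E : Type*} [Group G] [TopologicalSpace G] [IsTopologicalGroup G] [T2Space G]
  [NormedAddCommGroup E] [NormedSpace ℝ E] (D : GD G E)

theorem exists_ultra_limit (g : ℕ → G) (n : ℕ → ℕ) (c : ℝ) (hn : Tendsto n atTop atTop)
    (hb : ∀ k, (n k : ℝ) * D.N (g k) ≤ c) :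
    ∃ (𝒰 : Ultrafilter ℕ) (γ : ℝ → G), (𝒰 : Filter ℕ) ≤ atTop ∧
      (∀ s t, γ (s + t) = γ s * γ t) ∧
      ∀ t : ℝ, Tendsto (fun k => g k ^ ⌊t * (n k : ℝ)⌋) (𝒰 : Filter ℕ) (𝓝 (γ t)) := by
  set 𝒰 : Ultrafilter ℕ := Ultrafilter.of atTop with h𝒰
  have hle : (𝒰 : Filter ℕ) ≤ atTop := Ultrafilter.of_le _
  have hnR : Tendsto (fun k => (n k : ℝ)) atTop atTop := tendsto_natCast_atTop_atTop.comp hn
  have hN0 : Tendsto (fun k => D.N (g k)) atTop (𝓝 0) := by
    refine squeeze_zero' (Eventually.of_forall fun k => D.N_nonneg _) ?_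
      (tendsto_const_nhds (x := c).div_atTop hnR)
    filter_upwards [hnR.eventually_gt_atTop 0] with k hk
    rw [le_div_iff₀ hk, mul_comm]
    exact hb k
  have hadd : ∀ (s t : ℝ) (x y : G),
      Tendsto (fun k => g k ^ ⌊s * (n k : ℝ)⌋) (𝒰 : Filter ℕ) (𝓝 x) →
      Tendsto (fun k => g k ^ ⌊t * (n k : ℝ)⌋) (𝒰 : Filter ℕ) (𝓝 y) →
      Tendsto (fun k => g k ^ ⌊(s + t) * (n k : ℝ)⌋) (𝒰 : Filter ℕ) (𝓝 (x * y)) := by
    intro s t x y hx hy
    have he : Tendsto (fun k => g k ^ (⌊(s + t) * (n k : ℝ)⌋ - ⌊s * (n k : ℝ)⌋ - ⌊t * (n k : ℝ)⌋))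
        (𝒰 : Filter ℕ) (𝓝 1) := by
      refine D.tendsto_one_of_N _ (squeeze_zero (fun k => D.N_nonneg _) (fun k => ?_)
        (hN0.mono_left hle))
      refine (D.N_zpow_le _ _).trans (mul_le_of_le_one_left (D.N_nonneg _) ?_)
      have h1 := Int.le_floor_add (s * (n k : ℝ)) (t * (n k : ℝ))
      have h2 := Int.le_floor_add_floor (s * (n k : ℝ)) (t * (n k : ℝ))
      rw [← add_mul] at h1 h2
      rw [← Int.cast_abs, ← Int.cast_one, Int.cast_le, abs_le]
      constructor <;> omega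
    have := (hx.mul hy).mul he
    rw [mul_one] at this
    refine this.congr fun k => ?_
    rw [← zpow_add, ← zpow_add]
    congr 1
    ring
  have hsmall : ∀ t : ℝ, |t| * |c| ≤ 1 / 2 →
      ∃ x, Tendsto (fun k => g k ^ ⌊t * (n k : ℝ)⌋) (𝒰 : Filter ℕ) (𝓝 x) := by
    intro t ht
    have hev : ∀ᶠ k in (𝒰 : Filter ℕ), g k ^ ⌊t * (n k : ℝ)⌋ ∈ {g | D.N g ≤ 1} := by
      refine hle ?_
      filter_upwards [hN0.eventually (gt_mem_nhds (by norm_num : (0 : ℝ) < 1 / 2))] with k hk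
      refine (D.N_zpow_le _ _).trans ?_
      have h1 : |((⌊t * (n k : ℝ)⌋ : ℤ) : ℝ)| ≤ |t| * n k + 1 := by
        have i1 := Int.floor_le (t * (n k : ℝ))
        have i2 := Int.lt_floor_add_one (t * (n k : ℝ))
        have i3 : |t * (n k : ℝ)| = |t| * n k := by rw [abs_mul, Nat.abs_cast]
        have i4 := le_abs_self (t * (n k : ℝ))
        have i5 := neg_abs_le (t * (n k : ℝ))
        rw [abs_le]
        constructor <;> linarith
      have h2 := mul_le_mul_of_nonneg_right h1 (D.N_nonneg (g k))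
      have h3 := mul_le_mul_of_nonneg_left ((hb k).trans (le_abs_self c)) (abs_nonneg t)
      nlinarith
    obtain ⟨x, -, hx⟩ := D.cpt.ultrafilter_le_nhds
      (𝒰.map fun k => g k ^ ⌊t * (n k : ℝ)⌋) (by rw [le_principal_iff]; exact hev)
    exact ⟨x, hx⟩
  have hall : ∀ t : ℝ, ∃ x, Tendsto (fun k => g k ^ ⌊t * (n k : ℝ)⌋) (𝒰 : Filter ℕ) (𝓝 x) := by
    intro t
    obtain ⟨m, hm⟩ := exists_nat_gt (2 * (|t| * |c|))
    have hm0 : (0 : ℝ) < m := lt_of_le_of_lt (by positivity) hm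
    obtain ⟨x, hx⟩ := hsmall (t / m) (by
      rw [abs_div, Nat.abs_cast, div_mul_eq_mul_div, div_le_iff₀ hm0]
      linarith)
    have hind : ∀ j : ℕ, Tendsto (fun k => g k ^ ⌊(j * (t / m)) * (n k : ℝ)⌋) (𝒰 : Filter ℕ)
        (𝓝 (x ^ j)) := by
      intro j
      induction j with
      | zero => simp
      | succ j ih =>
        have := hadd _ _ _ _ ih hx
        rw [pow_succ]
        refine this.congr fun k => ?_
        congr 3
        push_cast
        ring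
    refine ⟨x ^ m, (hind m).congr fun k => ?_⟩
    congr 3
    field_simp
  choose γ hγ using hall
  exact ⟨𝒰, γ, hle, fun s t => tendsto_nhds_unique (hγ (s + t)) (hadd _ _ _ _ (hγ s) (hγ t)), hγ⟩

end GD

end Crest.Agent.R217.NSS
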