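import Crest.Agent.R217.NSS.OPS
import Crest.Agent.R217.NSS.Ultra

/-! # NSS groups are Lie groups: existence of one-parameter subgroups -/

set_option autoImplicit false
open Topology Filter

namespace Crest.Agent.R217.NSS

theorem u2_floor_div (n : ℕ → ℕ) (hn : Tendsto n atTop atTop) (t : ℝ) :
    Tendsto (fun k => ((⌊t * (n k : ℝ)⌋ : ℤ) : ℝ) / (n k : ℝ)) atTop (𝓝 t) := by
  have h1 : Tendsto (fun k => t - ((n k : ℝ))⁻¹) atTop (𝓝 t) := by
    have := (tendsto_inv_atTop_zero.comp (tendsto_natCast_atTop_atTop (R := ℝ) |>.comp hn))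
    simpa using tendsto_const_nhds.sub this
  refine tendsto_of_tendsto_of_tendsto_of_le_of_le' h1 tendsto_const_nhds ?_ ?_
  · filter_upwards [hn.eventually_gt_atTop 0] with k hk
    have hk' : (0 : ℝ) < n k := by exact_mod_cast hk
    rw [le_div_iff₀ hk', sub_mul, inv_mul_cancel₀ hk'.ne']
    exact (Int.sub_one_lt_floor _).le
  · filter_upwards [hn.eventually_gt_atTop 0] with k hk
    have hk' : (0 : ℝ) < n k := by exact_mod_cast hk
    rw [div_le_iff₀ hk']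
    exact Int.floor_le _

namespace GD

variable {G E : Type*} [Group G] [TopologicalSpace G] [IsTopologicalGroup G] [T2Space G]
  [NormedAddCommGroup E] [NormedSpace ℝ E] (D : GD G E)

theorem exists_ops_of_tendsto (g : ℕ → G) (n : ℕ → ℕ) (v : E) (hn : Tendsto n atTop atTop)
    (hv : Tendsto (fun k => (n k : ℝ) • D.ι (g k)) atTop (𝓝 v)) : ∃ γ, D.IsOPS v γ := by
  have ha : Tendsto (fun k => (n k : ℝ) * D.N (g k)) atTop (𝓝 ‖v‖) := by
    refine hv.norm.congr fun k => ?_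
    rw [norm_smul, Real.norm_natCast, D.norm_ι]
  obtain ⟨c, hc⟩ := ha.bddAbove_range
  obtain ⟨𝒰, γ, h𝒰, hγ, hlim⟩ := D.exists_ultra_limit g n c hn fun k => hc ⟨k, rfl⟩
  have hN : ∀ᶠ k in atTop, D.N (g k) ≤ 1 := by
    filter_upwards [(tendsto_natCast_atTop_atTop (R := ℝ) |>.comp hn).eventually_ge_atTop c,
      hn.eventually_gt_atTop 0] with k hk hk0
    have hk' : (0 : ℝ) < n k := by exact_mod_cast hk0
    have h1 : (n k : ℝ) * D.N (g k) ≤ c := hc ⟨k, rfl⟩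
    have h2 : c ≤ (n k : ℝ) := hk
    exact le_of_mul_le_mul_left (by linarith) hk'
  refine ⟨γ, hγ, hasDerivAt_of_quad _ v (2 * ‖v‖ ^ 2) 1 one_pos fun t _ => ?_⟩
  have hr := u2_floor_div n hn t
  have h1 : Tendsto (fun k => ‖D.ι (g k ^ ⌊t * (n k : ℝ)⌋) -
      (((⌊t * (n k : ℝ)⌋ : ℤ) : ℝ) / (n k : ℝ)) • ((n k : ℝ) • D.ι (g k))‖) (𝒰 : Filter ℕ)
      (𝓝 ‖D.ι (γ t) - t • v‖) :=
    (((D.continuous_ι.tendsto _).comp (hlim t)).sub ((hr.smul hv).mono_left h𝒰)).norm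
  have h2 : Tendsto (fun k => 2 * (|((⌊t * (n k : ℝ)⌋ : ℤ) : ℝ) / (n k : ℝ)| *
      ((n k : ℝ) * D.N (g k))) ^ 2) (𝒰 : Filter ℕ) (𝓝 (2 * (|t| * ‖v‖) ^ 2)) :=
    (((hr.abs.mul ha).pow 2).const_mul 2).mono_left h𝒰
  have h3 := le_of_tendsto_of_tendsto h1 h2 (by
    filter_upwards [h𝒰 hN, h𝒰 (hn.eventually_gt_atTop 0)] with k hk hk0
    have hk' : (0 : ℝ) < n k := by exact_mod_cast hk0
    have h4 := D.zpow_est (g k) hk ⌊t * (n k : ℝ)⌋
    rw [smul_smul, div_mul_cancel₀ _ hk'.ne', abs_div, Nat.abs_cast, ← mul_assoc,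
      div_mul_cancel₀ _ hk'.ne']
    exact h4)
  calc _ ≤ _ := h3
    _ = _ := by rw [mul_pow, sq_abs]; ring

theorem u2_ops_of_quad (g : ℕ → G) (u : ℕ → E) (C : ℕ → ℝ) (v : E) (C0 : ℝ)
    (hu : Tendsto u atTop (𝓝 v)) (hC : Tendsto C atTop (𝓝 C0))
    (h : ∀ᶠ k : ℕ in atTop, ‖D.ι (g k) - (1 / ((k : ℝ) + 1)) • u k‖ ≤ C k * (1 / ((k : ℝ) + 1)) ^ 2) :
    ∃ γ, D.IsOPS v γ := by
  refine D.exists_ops_of_tendsto g (fun k => k + 1) v (tendsto_add_atTop_nat 1) ?_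
  have h1 : Tendsto (fun k : ℕ => ((k + 1 : ℕ) : ℝ) • D.ι (g k) - u k) atTop (𝓝 0) := by
    have h2 := hC.mul (tendsto_one_div_add_atTop_nhds_zero_nat (𝕜 := ℝ))
    rw [mul_zero] at h2
    refine squeeze_zero_norm' ?_ h2
    filter_upwards [h] with k hk
    have hk' : (0 : ℝ) < (k : ℝ) + 1 := by positivity
    have e : ((k + 1 : ℕ) : ℝ) • D.ι (g k) - u k =
        ((k : ℝ) + 1) • (D.ι (g k) - (1 / ((k : ℝ) + 1)) • u k) := by
      rw [smul_sub, smul_smul, mul_one_div_cancel hk'.ne', one_smul]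
      push_cast
      rfl
    rw [e, norm_smul, Real.norm_of_nonneg hk'.le]
    calc _ ≤ ((k : ℝ) + 1) * (C k * (1 / ((k : ℝ) + 1)) ^ 2) := mul_le_mul_of_nonneg_left hk hk'.le
      _ = _ := by field_simp
  simpa using h1.add hu

theorem exists_ops_add {v w : E} {γ γ' : ℝ → G} (hv : D.IsOPS v γ) (hw : D.IsOPS w γ') :
    ∃ γ'', D.IsOPS (v + w) γ'' := by
  refine D.u2_ops_of_quad (fun k => γ (1 / ((k : ℝ) + 1)) * γ' (1 / ((k : ℝ) + 1)))
    (fun _ => v + w) (fun _ => ‖v‖ * ‖w‖ + ‖v‖ ^ 2 + ‖w‖ ^ 2) _ _ tendsto_const_nhds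
    tendsto_const_nhds ?_
  have h0 := (tendsto_one_div_add_atTop_nhds_zero_nat (𝕜 := ℝ)).mul_const ‖w‖
  rw [zero_mul] at h0
  filter_upwards [h0.eventually (ge_mem_nhds one_pos)] with k hk
  have hs : (0 : ℝ) ≤ 1 / ((k : ℝ) + 1) := by positivity
  generalize 1 / ((k : ℝ) + 1) = s at hk hs ⊢
  have a1 := hv.N_le s
  have a2 := hw.N_le s
  have a3 := hv.quad s
  have a4 := hw.quad s
  rw [abs_of_nonneg hs] at a1 a2 a3 a4
  have a5 := D.ι_mul_sub (γ s) (γ' s) (a2.trans hk)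
  have a6 : D.N (γ s) * D.N (γ' s) ≤ (s * ‖v‖) * (s * ‖w‖) :=
    mul_le_mul a1 a2 (D.N_nonneg _) (by positivity)
  have e : D.ι (γ s * γ' s) - s • (v + w) = (D.ι (γ s * γ' s) - D.ι (γ s) - D.ι (γ' s)) +
      (D.ι (γ s) - s • v) + (D.ι (γ' s) - s • w) := by
    rw [smul_add]; abel
  rw [e]
  refine (norm_add₃_le).trans ?_
  nlinarith

theorem isClosed_ops : IsClosed {v : E | ∃ γ, D.IsOPS v γ} := by
  refine IsSeqClosed.isClosed fun u v hu hv => ?_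
  choose γ hγ using hu
  refine D.u2_ops_of_quad (fun k => γ k (1 / ((k : ℝ) + 1))) u (fun k => ‖u k‖ ^ 2) v _ hv
    (hv.norm.pow 2) (Eventually.of_forall fun k => ?_)
  refine ((hγ k).quad _).trans (le_of_eq ?_)
  rw [mul_pow, sq_abs, mul_comm]

/-- `ι g` is tangent to the set of velocities: `dist (ι g, L) = o(N g)`. -/
theorem exists_ops_approx [CompleteSpace E] (δ : ℝ) (hδ : 0 < δ) :
    ∃ η > 0, ∀ g, D.N g < η → ∃ w γ, D.IsOPS w γ ∧ ‖D.ι g - w‖ ≤ δ * D.N g := by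
  by_contra hcon
  push Not at hcon
  choose g hg1 hg2 using fun k : ℕ => hcon (1 / ((k : ℝ) + 1)) (by positivity)
  have hpos : ∀ k, 0 < D.N (g k) := by
    intro k
    have h1 := hg2 k 0 _ D.isOPS_zero
    rw [sub_zero, D.norm_ι] at h1
    exact lt_of_le_of_lt (mul_nonneg hδ.le (D.N_nonneg _)) h1
  obtain ⟨ε, rfl⟩ : ∃ ε, δ = 6 * ε := ⟨δ / 6, by ring⟩
  have hε : 0 < ε := by linarith
  have hN0 : Tendsto (fun k => D.N (g k)) atTop (𝓝 0) :=
    squeeze_zero (fun k => (hpos k).le) (fun k => (hg1 k).le)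
      tendsto_one_div_add_atTop_nhds_zero_nat
  obtain ⟨n, hndef⟩ : ∃ n : ℕ → ℕ, ∀ k, n k = ⌊ε / D.N (g k)⌋₊ := ⟨_, fun _ => rfl⟩
  have hn : Tendsto n atTop atTop := by
    rw [funext hndef]
    refine tendsto_nat_floor_atTop.comp ?_
    have h1 : Tendsto (fun k => (D.N (g k))⁻¹) atTop atTop :=
      tendsto_inv_nhdsGT_zero.comp (tendsto_nhdsWithin_iff.2 ⟨hN0, Eventually.of_forall hpos⟩)
    simpa only [div_eq_mul_inv] using h1.const_mul_atTop hε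
  have hle : ∀ k, (n k : ℝ) * D.N (g k) ≤ ε := by
    intro k
    rw [← le_div_iff₀ (hpos k), hndef]
    exact Nat.floor_le (div_pos hε (hpos k)).le
  have hge : ∀ k, ε - D.N (g k) ≤ (n k : ℝ) * D.N (g k) := by
    intro k
    have h1 := Nat.lt_floor_add_one (ε / D.N (g k))
    rw [← hndef, div_lt_iff₀ (hpos k)] at h1
    linarith
  obtain ⟨𝒰, γ, h𝒰, hγ, hlim⟩ := D.exists_ultra_limit g n ε hn hle
  have hlip : ∀ t, D.N (γ t) ≤ ε * |t| := by
    intro t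
    have hr := u2_floor_div n hn t
    refine le_of_tendsto_of_tendsto ((D.continuous_N.tendsto _).comp (hlim t))
      ((hr.abs.const_mul ε).mono_left h𝒰) ?_
    filter_upwards [h𝒰 (hn.eventually_gt_atTop 0)] with k hk0
    have hk' : (0 : ℝ) < n k := by exact_mod_cast hk0
    refine (D.N_zpow_le _ _).trans ?_
    rw [abs_div, Nat.abs_cast, mul_div_assoc', le_div_iff₀ hk', mul_assoc, mul_comm ε,
      mul_comm (D.N (g k))]
    exact mul_le_mul_of_nonneg_left (hle k) (abs_nonneg _)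
  obtain ⟨v, hv, hvε⟩ := D.exists_ops_of_lip γ hγ ε hlip
  have h1 : Tendsto (fun k => ‖D.ι (g k ^ n k) - D.ι (γ 1)‖) (𝒰 : Filter ℕ) (𝓝 0) := by
    rw [← tendsto_iff_norm_sub_tendsto_zero]
    refine (D.continuous_ι.tendsto _).comp ((hlim 1).congr fun k => ?_)
    rw [one_mul, Int.floor_natCast, zpow_natCast]
  obtain ⟨k, k1, k2, k3, k4⟩ := ((h1.eventually (ge_mem_nhds (pow_pos hε 2))).and
    (((hN0.eventually (ge_mem_nhds (half_pos hε))).and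
      ((hN0.eventually (ge_mem_nhds one_pos)).and (hn.eventually_gt_atTop 0))).filter_mono
        h𝒰)).exists
  have hk' : (0 : ℝ) < n k := by exact_mod_cast k4
  have a1 := hg2 k _ _ (hv.smul ((n k : ℝ))⁻¹)
  have a2 := D.pow_est' (g k) k3 (n k)
  have a3 := hv.quad 1
  rw [one_smul, abs_one, one_mul] at a3
  have a4 : ((n k : ℝ) * D.N (g k)) ^ 2 ≤ ε ^ 2 :=
    pow_le_pow_left₀ (mul_nonneg hk'.le (D.N_nonneg _)) (hle k) 2
  have a5 : ‖v‖ ^ 2 ≤ ε ^ 2 := pow_le_pow_left₀ (norm_nonneg _) hvε 2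
  have e : (n k : ℝ) • (D.ι (g k) - ((n k : ℝ))⁻¹ • v) =
      -(D.ι (g k ^ n k) - (n k : ℝ) • D.ι (g k)) + (D.ι (g k ^ n k) - D.ι (γ 1)) +
        (D.ι (γ 1) - v) := by
    rw [smul_sub, smul_smul, mul_inv_cancel₀ hk'.ne', one_smul]; abel
  have a6 : (n k : ℝ) * ‖D.ι (g k) - ((n k : ℝ))⁻¹ • v‖ ≤ 3 * ε ^ 2 := by
    rw [← Real.norm_natCast (n k), Real.norm_natCast, ← Real.norm_of_nonneg hk'.le, ← norm_smul,
      Real.norm_of_nonneg hk'.le, e]
    refine norm_add₃_le.trans ?_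
    rw [norm_neg]
    linarith
  have a7 := mul_lt_mul_of_pos_left a1 hk'
  have a8 := hge k
  nlinarith

end GD

end Crest.Agent.R217.NSS
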